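import Vale.Agent.P106.U.H611.Nondeg

/-!
# P106 / U / H611 : the concrete M-step `PSat d` (END7, Case A)
-/

set_option autoImplicit false

namespace Vale.Agent.P106.U.EndA

open Finset Vale.Agent.P127 Vale.Agent.P127.Stk Vale.Agent.P127.U.CellD Vale.Agent.P127.U.Mic

variable {d : ℕ} {Ω α : Type}

theorem exists_pow2 (x : ℝ) : ∃ n : ℕ, x ≤ 2 ^ n := by
  obtain ⟨n, hn⟩ := pow_unbounded_of_one_lt x (by norm_num : (1 : ℝ) < 2)
  exact ⟨n, hn.le⟩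

theorem half_pow_le {a b : ℕ} (h : a ≤ b) : ((1 : ℝ) / 2) ^ b ≤ (1 / 2) ^ a :=
  pow_le_pow_of_le_one (by norm_num) (by norm_num) h

theorem half_pow_mul (n : ℕ) : ((1 : ℝ) / 2) ^ n * 2 ^ n = 1 := by
  rw [← mul_pow]; norm_num

theorem pSat_zero : PSat 0 := by
  refine ⟨0, ?_⟩
  intro Ω _ α P S i i' j e ι₁ ι₂ _ _ _ _ _ _ _ _
  have h1 := hc_nonneg P (fun ω (k : Fin 0) => ⌊S.ps i' i j ω k⌋)
        (fun ω => ((fun k => ⌊S.ps i' i j ω k / 2 ^ S.m⌋), S.J i j ω, S.T i' ω))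
  have h2 := Real.sqrt_nonneg ι₁
  have h3 := Real.sqrt_nonneg ι₂
  simp only [Nat.cast_zero, zero_mul, zero_add, pow_zero, one_mul]
  linarith

theorem PlB.nonneg [Fintype Ω] {P : Law Ω} {m : ℕ} {A : Ω → Fr d} {Q : Ω → Fin d → ℝ} {γ : Type*}
    {C : Ω → γ} {e : ℝ} (hd : 0 < d) (h : PlB P m A Q C e) : 0 ≤ e := by
  refine le_trans ?_ (h (fun _ => (⟨0, hd⟩, 0, 0)) fun z l => by simp)
  exact Finset.sum_nonneg fun ω _ => P.nn ω

theorem mi_block [Fintype Ω] {P : Law Ω} (S : Sy d Ω α) (i i' j : ℕ) :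
    mi P (fun ω => xS S i j (S.J i (j + 1) ω)) (S.J i' j) (fun ω => (S.J i j ω, S.T i' ω)) ≤
      mi P (S.w (j + 1)) (S.J i' j) (S.J i j) := by
  have h1 : mi P (fun ω => xS S i j (S.J i (j + 1) ω)) (S.J i' j)
      (fun ω => (S.J i j ω, S.T i' ω)) ≤
      mi P (S.w (j + 1)) (S.J i' j) (fun ω => (S.J i j ω, S.T i' ω)) := by
    refine mi_mono_left P _ ?_
    intro ω ω' _ _ e
    have e1 : S.w (j + 1) ω = S.w (j + 1) ω' := congrArg Prod.fst e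
    show xS S i j (S.J i (j + 1) ω) = xS S i j (S.J i (j + 1) ω')
    unfold xS
    rw [stJ_J S le_rfl le_rfl, stJ_J S le_rfl le_rfl, e1]
  refine h1.trans ?_
  rw [mi_symm P (S.w (j + 1)), mi_symm P (S.w (j + 1))]
  have h2 : mi P (S.J i' j) (S.w (j + 1)) (fun ω => (S.J i j ω, S.T i' ω)) =
      mi P (S.J i' j) (S.w (j + 1)) (fun ω => (S.T i' ω, S.J i j ω)) := by
    refine mi_congr_cond P _ _ ?_ ?_
    · intro ω ω' _ _ e
      simp only [Prod.mk.injEq] at e ⊢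
      exact ⟨e.2, e.1⟩
    · intro ω ω' _ _ e
      simp only [Prod.mk.injEq] at e ⊢
      exact ⟨e.2, e.1⟩
  rw [h2]
  refine mi_cond_le P _ _ ?_
  intro ω ω' _ _ e
  exact base_T (J_base (congrArg Prod.fst e) le_rfl le_rfl)

/-- number of shifts -/
def RS (d c0 m : ℕ) : ℕ := 4 * d * d.factorial * 4 ^ d * 2 ^ ((1 + d + c0) * m)

theorem RS_tau (d c0 m : ℕ) : 2 * (d : ℝ) * d.factorial * (2 ^ m / 4) ≤
    RS d c0 m * (((1 / 2) ^ m / 4) ^ d * ((1 / 2) ^ (c0 * m) / 2)) := by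
  unfold RS
  push_cast
  have e1 : (4 : ℝ) * d * d.factorial * 4 ^ d * 2 ^ ((1 + d + c0) * m) *
      (((1 / 2) ^ m / 4) ^ d * ((1 / 2) ^ (c0 * m) / 2)) =
      2 * d * d.factorial * 2 ^ m := by
    have a1 : (2 : ℝ) ^ ((1 + d + c0) * m) = 2 ^ m * 2 ^ (m * d) * 2 ^ (c0 * m) := by
      rw [← pow_add, ← pow_add]
      congr 1
      ring
    have a2 : ((1 / 2 : ℝ) ^ m / 4) ^ d = (1 / 2) ^ (m * d) / 4 ^ d := by
      rw [div_pow, ← pow_mul]
    rw [a1, a2]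
    have a3 := half_pow_mul (m * d)
    have a4 := half_pow_mul (c0 * m)
    have a5 : (4 : ℝ) ^ d ≠ 0 := by positivity
    calc (4 : ℝ) * d * d.factorial * 4 ^ d * (2 ^ m * 2 ^ (m * d) * 2 ^ (c0 * m)) *
          ((1 / 2) ^ (m * d) / 4 ^ d * ((1 / 2) ^ (c0 * m) / 2)) =
        2 * d * d.factorial * 2 ^ m * ((1 / 2) ^ (m * d) * 2 ^ (m * d)) *
          ((1 / 2) ^ (c0 * m) * 2 ^ (c0 * m)) * (4 ^ d / 4 ^ d) := by ring
      _ = 2 * d * d.factorial * 2 ^ m := by rw [a3, a4, div_self a5]; ring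
  rw [e1]
  have : (0 : ℝ) ≤ 2 * d * d.factorial * 2 ^ m := by positivity
  linarith

theorem RS_rho {d c0 c2 c m : ℕ} (hc2 : 20 * (d : ℝ) ^ 2 * d.factorial * 4 ^ d ≤ 2 ^ c2)
    (hc : 1 + d + c0 + c2 ≤ c) (hm : 1 ≤ m) : 5 * (d : ℝ) * RS d c0 m * (1 / 2) ^ (c * m) ≤ 1 := by
  unfold RS
  push_cast
  have b1 : (5 : ℝ) * d * (4 * d * d.factorial * 4 ^ d * 2 ^ ((1 + d + c0) * m)) =
      (20 * d ^ 2 * d.factorial * 4 ^ d) * 2 ^ ((1 + d + c0) * m) := by ring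
  rw [b1]
  calc (20 * (d : ℝ) ^ 2 * d.factorial * 4 ^ d) * 2 ^ ((1 + d + c0) * m) * (1 / 2) ^ (c * m)
      ≤ 2 ^ c2 * 2 ^ ((1 + d + c0) * m) * (1 / 2) ^ (c * m) := by gcongr
    _ = 2 ^ (c2 + (1 + d + c0) * m) * (1 / 2) ^ (c * m) := by rw [pow_add]
    _ ≤ 2 ^ (c * m) * (1 / 2) ^ (c * m) := by
        gcongr
        · norm_num
        · have : (1 + d + c0 + c2) * m ≤ c * m := Nat.mul_le_mul_right _ hc
          have h3 : c2 * 1 ≤ c2 * m := Nat.mul_le_mul_left _ hm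
          rw [add_mul _ c2] at this
          omega
    _ = 1 := by rw [mul_comm, half_pow_mul]

theorem RS_err {d c0 c4 c6 c m : ℕ} (hd : 1 ≤ d)
    (hc4 : 4 * (d : ℝ) * d.factorial * 4 ^ d ≤ 2 ^ c4) (hc6 : 128 * (d : ℝ) ^ 2 ≤ 2 ^ c6)
    (hc : 2 * (c4 + 1 + d + c0) + c6 ≤ c) (hm : 1 ≤ m) :
    (RS d c0 m : ℝ) * (1 + d * Real.log (RS d c0 m)) * (d * 64) ≤ 2 ^ (c * m) := by
  set R : ℕ := RS d c0 m with hR
  have hRpos : (1 : ℝ) ≤ R := by
    have : 1 ≤ R := by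
      rw [hR]
      unfold RS
      exact Nat.one_le_iff_ne_zero.2 (by positivity)
    exact_mod_cast this
  have hlogR : Real.log R ≤ R := by
    have := Real.log_le_sub_one_of_pos (by linarith : (0 : ℝ) < R)
    linarith
  have hRle : (R : ℝ) ≤ 2 ^ ((c4 + 1 + d + c0) * m) := by
    rw [hR]
    unfold RS
    push_cast
    calc (4 : ℝ) * d * d.factorial * 4 ^ d * 2 ^ ((1 + d + c0) * m) ≤
        2 ^ c4 * 2 ^ ((1 + d + c0) * m) := by gcongr
      _ = 2 ^ (c4 + (1 + d + c0) * m) := by rw [pow_add]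
      _ ≤ 2 ^ ((c4 + 1 + d + c0) * m) := by
          gcongr
          · norm_num
          · have h3 : c4 * 1 ≤ c4 * m := Nat.mul_le_mul_left _ hm
            calc c4 + (1 + d + c0) * m ≤ c4 * m + (1 + d + c0) * m := by omega
              _ = (c4 + 1 + d + c0) * m := by ring
  have hd1 : (1 : ℝ) ≤ d := by exact_mod_cast hd
  calc (R : ℝ) * (1 + d * Real.log R) * (d * 64) ≤ R * (1 * (d * R) + d * R) * (d * 64) := by
        have h1 : (1 : ℝ) ≤ 1 * (d * R) := by nlinarith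
        have h2 : (d : ℝ) * Real.log R ≤ d * R := by gcongr
        gcongr
    _ = 128 * d ^ 2 * (R * R) := by ring
    _ ≤ 2 ^ c6 * (2 ^ ((c4 + 1 + d + c0) * m) * 2 ^ ((c4 + 1 + d + c0) * m)) := by gcongr
    _ = 2 ^ (c6 + ((c4 + 1 + d + c0) * m + (c4 + 1 + d + c0) * m)) := by rw [pow_add, pow_add]
    _ ≤ 2 ^ (c * m) := by
        gcongr
        · norm_num
        · have h3 : c6 * 1 ≤ c6 * m := Nat.mul_le_mul_left _ hm
          have h4 : (2 * (c4 + 1 + d + c0) + c6) * m ≤ c * m := Nat.mul_le_mul_right _ hc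
          have h5 : (2 * (c4 + 1 + d + c0) + c6) * m =
            ((c4 + 1 + d + c0) * m + (c4 + 1 + d + c0) * m) + c6 * m := by ring
          omega

theorem rho_1 {κ a b c m : ℕ} (h : a + κ + c * m ≤ b) :
    (2 : ℝ) ^ κ * (2 ^ a / 2 ^ b) ≤ (1 / 2) ^ (c * m) := by
  have e1 : (2 : ℝ) ^ κ * (2 ^ a / 2 ^ b) = 2 ^ (κ + a) / 2 ^ b := by
    rw [pow_add]; ring
  rw [e1, div_le_iff₀ (by positivity)]
  calc (2 : ℝ) ^ (κ + a) = (1 / 2) ^ (c * m) * 2 ^ (c * m) * 2 ^ (κ + a) := by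
        rw [half_pow_mul, one_mul]
    _ = (1 / 2) ^ (c * m) * 2 ^ (c * m + (κ + a)) := by
        rw [pow_add 2 (c * m)]; ring
    _ ≤ (1 / 2) ^ (c * m) * 2 ^ b := by
        gcongr
        · norm_num
        · omega

theorem rho_2 {κ p c m : ℕ} (h : c * m + κ ≤ p) : (2 : ℝ) ^ κ / 2 ^ p ≤ (1 / 2) ^ (c * m) := by
  have := rho_1 (κ := κ) (a := 0) (b := p) (c := c) (m := m) (by omega)
  simpa [div_eq_mul_inv] using this

theorem rho_3 {c0 c1 c m p : ℕ} {C : ℝ} (hc1 : C ≤ 2 ^ c1) (hc : c0 + (c1 + 1) ≤ c)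
    (hm : 1 ≤ m) (hp : c * m ≤ p) : C * q2 p ≤ (1 / 2) ^ (c0 * m) / 2 := by
  have h1 : q2 p ≤ (1 / 2) ^ (c0 * m) * (1 / 2) ^ (c1 + 1) := by
    unfold q2
    rw [← pow_add]
    refine half_pow_le ?_
    have : (c0 + (c1 + 1)) * m ≤ c * m := Nat.mul_le_mul_right _ hc
    have h3 : (c1 + 1) * 1 ≤ (c1 + 1) * m := Nat.mul_le_mul_left _ hm
    rw [add_mul] at this
    omega
  calc C * q2 p ≤ 2 ^ c1 * ((1 / 2) ^ (c0 * m) * (1 / 2) ^ (c1 + 1)) := by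
        have := (q2_pos p).le
        gcongr
    _ = (1 / 2) ^ (c0 * m) * ((1 / 2) ^ c1 * 2 ^ c1) / 2 := by ring
    _ = (1 / 2) ^ (c0 * m) / 2 := by rw [half_pow_mul, mul_one]

/-- comparison of the cells of `ps / 4` with those of `ps` -/
theorem hc_cells [Fintype Ω] (P : Law Ω) (S : Sy d Ω α) (i' i j : ℕ) :
    hc P (fun ω => TV.celi 1 (fun k => S.ps i' i j ω k / 4))
      (fun ω => (TV.celi (2 ^ S.m / 4) (fun k => S.ps i' i j ω k / 4), (S.J i j ω, S.T i' ω))) ≤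
      hc P (fun ω k => ⌊S.ps i' i j ω k⌋)
        (fun ω => ((fun k => ⌊S.ps i' i j ω k / 2 ^ S.m⌋), S.J i j ω, S.T i' ω)) := by
  have e1 : (fun ω => (TV.celi (2 ^ S.m / 4) (fun k => S.ps i' i j ω k / 4),
      (S.J i j ω, S.T i' ω))) =
      (fun ω => ((fun k => ⌊S.ps i' i j ω k / 2 ^ S.m⌋), S.J i j ω, S.T i' ω)) := by
    funext ω
    refine Prod.ext ?_ rfl
    funext k
    show ⌊S.ps i' i j ω k / 4 / (2 ^ S.m / 4)⌋ = _
    congr 1
    field_simp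
  rw [e1]
  refine hc_mono_left P ?_
  intro ω ω' _ _ h
  have h1 := congrArg Prod.fst h
  funext k
  have h2 : ⌊S.ps i' i j ω k⌋ = ⌊S.ps i' i j ω' k⌋ := congrFun h1 k
  show ⌊S.ps i' i j ω k / 4 / 1⌋ = ⌊S.ps i' i j ω' k / 4 / 1⌋
  rw [div_one, div_one]
  have e4 : ∀ x : ℝ, ⌊x / 4⌋ = ⌊x⌋ / 4 := by
    intro x
    have := Int.floor_div_natCast x 4
    push_cast at this
    exact this
  rw [e4, e4, h2]

theorem gainL_eq (d m : ℕ) : TV.gainL d 1 (2 ^ m / 4) =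
    d * m * Real.log 2 - (d * Real.log 4 + d * Real.log (3 * (2 * d + 3))) := by
  unfold TV.gainL
  rw [div_one, Real.log_div (by positivity) (by norm_num), Real.log_pow]
  ring

theorem avG_01 [Fintype Ω] (P : Law Ω) (S : Sy d Ω α) (i i' j : ℕ) (τ : ℝ) :
    0 ≤ P.ex (TV.avG P (S.J i j) (S.T i') (S.J i (j + 1)) (fun _ w => xS S i j w)
        (TV.chiG (FS S i i') (fS d) τ)) ∧
    P.ex (TV.avG P (S.J i j) (S.T i') (S.J i (j + 1)) (fun _ w => xS S i j w)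
        (TV.chiG (FS S i i') (fS d) τ)) ≤ 1 := by
  have h1 := TV.avG_mem P (S.J i j) (S.T i') (S.J i (j + 1)) (fun _ w => xS S i j w)
    (TV.chiG (FS S i i') (fS d) τ) (TV.chiG_nonneg _ _ _) (TV.chiG_le_one _ _ _)
  constructor
  · exact P.ex_nonneg fun ω _ => (h1 ω).1
  · have := P.ex_mono (fun ω _ => (h1 ω).2)
    rw [P.ex_const] at this
    exact this

/-- the final inequality -/
theorem fin_ineq {c d m col e av K c0 X I1 I2 i1 i2 G : ℝ} (hd : 0 ≤ d) (hm : 0 ≤ m) (hK : K ≤ c)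
    (hK0 : 0 ≤ K) (h7 : 7 * d ≤ c) (h0 : c0 * d ≤ c) (hc00 : 0 ≤ c0) (hcol : 0 ≤ col) (he : 0 ≤ e)
    (hav : av ≤ 1) (havg : 1 - 7 * col - c0 * e ≤ av) (hX : 0 ≤ X) (hG : X * (d * 64) ≤ G)
    (h1 : I1 ≤ i1) (h2 : I2 ≤ i2) (hI1 : 0 ≤ I1) (hI2 : 0 ≤ I2) :
    d * m * Real.log 2 - (c + c * m * (col + e) + G * (i1 + i2)) ≤
      av * (d * m * Real.log 2 - K) - X * (d * (8 * I1 + 64 * I2)) := by
  have hlog2 : 0 < Real.log 2 := Real.log_pos (by norm_num)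
  have hlog2' : Real.log 2 ≤ 1 := by
    have := Real.log_two_lt_d9
    linarith
  have f1 : d * m * Real.log 2 - K - (1 - av) * (d * m * Real.log 2) ≤
      av * (d * m * Real.log 2 - K) := by nlinarith
  have f2 : (1 - av) * (d * m * Real.log 2) ≤ c * m * (col + e) := by
    have g1 : 1 - av ≤ 7 * col + c0 * e := by linarith
    have g2 : (1 - av) * (d * m * Real.log 2) ≤ (7 * col + c0 * e) * (d * m * 1) := by
      have : 0 ≤ 1 - av := by linarith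
      gcongr
    have g3 : (7 * col + c0 * e) * (d * m * 1) = m * (7 * d * col + c0 * d * e) := by ring
    rw [g3] at g2
    have g4 : m * (7 * d * col + c0 * d * e) ≤ m * (c * col + c * e) := by gcongr
    linarith
  have f4 : X * (d * (8 * I1 + 64 * I2)) ≤ G * (i1 + i2) := by
    calc X * (d * (8 * I1 + 64 * I2)) ≤ X * (d * (64 * i1 + 64 * i2)) := by
          gcongr
          norm_num
      _ = X * (d * 64) * (i1 + i2) := by ring
      _ ≤ G * (i1 + i2) := by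
          have : 0 ≤ i1 + i2 := by linarith
          gcongr
  linarith

theorem pSat (d : ℕ) : PSat d := by
  rcases Nat.eq_zero_or_pos d with rfl | hd
  · exact pSat_zero
  obtain ⟨c0, hc0⟩ := Non.pNon d
  obtain ⟨C, _, hC⟩ := H11.det_pert d
  obtain ⟨c1, hc1⟩ := exists_pow2 C
  obtain ⟨c2, hc2⟩ := exists_pow2 (20 * d ^ 2 * d.factorial * 4 ^ d)
  obtain ⟨c4, hc4⟩ := exists_pow2 (4 * d * d.factorial * 4 ^ d)
  obtain ⟨c6, hc6⟩ := exists_pow2 (128 * d ^ 2)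
  set K : ℝ := d * Real.log 4 + d * Real.log (3 * (2 * d + 3)) with hK
  obtain ⟨c7, hc7⟩ := exists_nat_ge K
  have hK0 : 0 ≤ K := by
    rw [hK]
    have h1 : 0 ≤ Real.log 4 := Real.log_nonneg (by norm_num)
    have h2 : 0 ≤ Real.log (3 * (2 * (d : ℝ) + 3)) :=
      Real.log_nonneg (by nlinarith [show (0 : ℝ) ≤ d by positivity])
    positivity
  obtain ⟨c, hcc1, hcc2, hcc3, hcc4, hcc5, hcc6⟩ : ∃ c : ℕ, c0 + (c1 + 1) ≤ c ∧
      1 + d + c0 + c2 ≤ c ∧ 2 * (c4 + 1 + d + c0) + c6 ≤ c ∧ c7 ≤ c ∧ 7 * d ≤ c ∧ c0 * d ≤ c :=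
    ⟨(c0 + (c1 + 1)) + (1 + d + c0 + c2) + (2 * (c4 + 1 + d + c0) + c6) + c7 + 7 * d + c0 * d,
      by omega, by omega, by omega, by omega, by omega, by omega⟩
  refine ⟨c, ?_⟩
  intro Ω _ α P S i i' j e ι₁ ι₂ hN hm hp hlt hiso hpl hι₁ hι₂
  have he : 0 ≤ e := hpl.nonneg hd
  have hcol := colp_nonneg P (fun ω => fl1 (S.lt i + S.m) (S.t ω)) (S.J i j)
  have hKc : K ≤ c := hc7.trans (by exact_mod_cast hcc4)
  have hc7d : (7 : ℝ) * d ≤ c := by exact_mod_cast hcc5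
  have hc0d : (c0 : ℝ) * d ≤ c := by exact_mod_cast hcc6
  rcases Nat.lt_or_ge S.m 2 with hm2 | hm2
  · have hm1 : S.m = 1 := by omega
    have hlog2 : 0 < Real.log 2 := Real.log_pos (by norm_num)
    have hlog2' : Real.log 2 ≤ 1 := by
      have := Real.log_two_lt_d9
      linarith
    have hhc := hc_nonneg P (fun ω k => ⌊S.ps i' i j ω k⌋)
        (fun ω => ((fun k => ⌊S.ps i' i j ω k / 2 ^ S.m⌋), S.J i j ω, S.T i' ω))
    have hsq1 := Real.sqrt_nonneg ι₁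
    have hsq2 := Real.sqrt_nonneg ι₂
    have hG : 0 ≤ (2 : ℝ) ^ (c * S.m) * (Real.sqrt ι₁ + Real.sqrt ι₂) := by positivity
    have h1 : (d : ℝ) * S.m * Real.log 2 ≤ c := by
      rw [hm1]
      push_cast
      nlinarith [show (0 : ℝ) ≤ d by positivity]
    have h2 : 0 ≤ c * S.m * (colp P (fun ω => fl1 (S.lt i + S.m) (S.t ω)) (S.J i j) + e) := by
      positivity
    linarith
  -- the case `2 ≤ m`
  have hc1' : 1 ≤ c := by omega
  have hcm : S.m ≤ c * S.m := Nat.le_mul_of_pos_left _ (by omega)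
  have hii : i ≤ i' := by
    by_contra h
    rw [not_le] at h
    have : S.lt i' ≤ S.lt i := by unfold Sy.lt; gcongr
    omega
  have hii2 : S.lt i + S.m ≤ S.lt i' := by omega
  have hgeo := geo hN hiso hii (rho_1 hlt) (rho_2 hp)
  have havg := avG_ge hc0 hC hN hm hiso hii2 hii (rho_3 hc1 hcc1 hm (by omega)) hpl
  have hlL : (1 : ℝ) ≤ 2 ^ S.m / 4 := by
    rw [le_div_iff₀ (by norm_num)]
    calc (1 : ℝ) * 4 = 2 ^ 2 := by norm_num
      _ ≤ 2 ^ S.m := by gcongr; norm_num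
  have hmain := TV.mstepGL hgeo (fS d) (fS_inj d) (fS_ne d)
    (((1 / 2) ^ S.m / 4) ^ d * ((1 / 2) ^ (c0 * S.m) / 2)) 1 (2 ^ S.m / 4) (RS d c0 S.m)
    (by positivity) le_rfl hlL (by rw [Fintype.card_fin]; exact RS_tau d c0 S.m)
    (by positivity) (by rw [Fintype.card_fin]; exact RS_rho hc2 hcc2 hm)
  rw [Fintype.card_fin, gainL_eq, ← hK] at hmain
  refine le_trans ?_ (hmain.trans (hc_cells P S i' i j))
  have hI1 := Real.sqrt_le_sqrt ((mi_block S i i' j).trans hι₁)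
  have hI2 := Real.sqrt_le_sqrt hι₂
  have hlogR : 0 ≤ Real.log (RS d c0 S.m) := Real.log_natCast_nonneg _
  exact fin_ineq (by positivity) (by positivity) hKc hK0 hc7d hc0d (by positivity) hcol he
    (avG_01 P S i i' j _).2 havg (by positivity) (RS_err hd hc4 hc6 hcc3 hm) hI1 hI2
    (Real.sqrt_nonneg _) (Real.sqrt_nonneg _)

end Vale.Agent.P106.U.EndA
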