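import Vale.Agent.P127.U.CellD
import Vale.Agent.P127.U.Mic.Colp
import Vale.Agent.P106.U.H833.MicAbs

/-!
# P106 / U / H611 : saturation in a fixed frame, lines of `R^(1+d)` (block END7, Case A)

Lines `s ↦ X + s Q`, `X, Q : Ω → Fin d → ℝ`, time `t`, side variable `A`.

* `Fr d` frame = rows of a `d × d` matrix, `ap A x` coordinates, `dg A x` their integer parts.
* a *word* : states `w j ω` (lists of pairs (code, digits of `Q` in the new frame)); code `none` = all
  coordinates are refined by `p` digits, code `some (k, q)` = the coordinate `k` is replaced by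
  `2^m (coordinate k + ∑_{l ≠ k} (q l / 2^m) coordinate l)`.
* `Sy.J i j` : the cell of the line at the time level `a0 + m i` in the frames of the states `w j'`, `j' ≤ j`;
  exactly nested in `i` and in `j`.
* `sl A x (k, q, c)` : `x` is in a slab of thickness `2^-m` in the coordinates `A`.
* `PlB` : a slab chosen as a function of the variable `C` has mass at most `e`.
-/

set_option autoImplicit false

namespace Vale.Agent.P106.U.EndA

open Finset Vale.Agent.P127 Vale.Agent.P127.Stk Vale.Agent.P127.U.CellD Vale.Agent.P127.U.Mic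

/-- a frame: the rows of a square matrix -/
abbrev Fr (d : ℕ) := Fin d → Fin d → ℝ

variable {d : ℕ}

/-- the coordinates of a vector in a frame -/
def ap (A : Fr d) (x : Fin d → ℝ) : Fin d → ℝ := fun i => ∑ l, A i l * x l

/-- integer parts of the coordinates -/
noncomputable def dg (A : Fr d) (x : Fin d → ℝ) : Fin d → ℤ := fun i => ⌊ap A x i⌋

/-- the identity frame -/
def fr1 : Fr d := fun i l => if i = l then 1 else 0

/-- codes of a step of the word -/
abbrev Cd (d : ℕ) := Option (Fin d × (Fin d → ℤ))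

/-- the covector of a code -/
noncomputable def cv (m : ℕ) (k : Fin d) (q : Fin d → ℤ) : Fin d → ℝ :=
  fun l => if l = k then 1 else (q l : ℝ) / 2 ^ m

/-- the new coordinate of a code -/
noncomputable def nc (m : ℕ) (A : Fr d) (k : Fin d) (q : Fin d → ℤ) (x : Fin d → ℝ) : ℝ :=
  2 ^ m * ∑ i, cv m k q i * ap A x i

/-- the new frame -/
noncomputable def upd (m p : ℕ) (A : Fr d) : Cd d → Fr d
  | none => fun i l => 2 ^ p * A i l
  | some (k, q) => Function.update A k (fun l => 2 ^ m * ∑ i, cv m k q i * A i l)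

/-- a state: pairs (code, digits of the velocity in the new frame), last step first -/
abbrev Sta (d : ℕ) := List (Cd d × (Fin d → ℤ))

/-- the frame of a state -/
noncomputable def fr (m p : ℕ) : Sta d → Fr d
  | [] => fr1
  | (c, _) :: s => upd m p (fr m p s) c

/-- slab of thickness `2^-m` in the coordinates `A` -/
def sl (m : ℕ) (A : Fr d) (x : Fin d → ℝ) (π : Fin d × (Fin d → ℤ) × ℤ) : Prop :=
  ⌊nc m A π.1 π.2.1 x⌋ = π.2.2

/-- admissible covector -/
def okc (m : ℕ) (q : Fin d → ℤ) : Prop := ∀ l, |q l| ≤ 2 ^ m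

/-- **word** of the vector `Q` -/
structure IsWd {Ω : Type} (m p : ℕ) (Q : Ω → Fin d → ℝ) (w : ℕ → Ω → Sta d) : Prop where
  zero : ∀ ω, w 0 ω = []
  succ : ∀ j ω, ∃ c : Cd d, (∀ k q, c = some (k, q) → okc m q) ∧
    w (j + 1) ω = (c, dg (upd m p (fr m p (w j ω)) c) (Q ω)) :: w j ω

/-- the step `j` of the word is isotropic -/
def iso {Ω : Type} (w : ℕ → Ω → Sta d) (j : ℕ) (ω : Ω) : Prop :=
  ((w (j + 1) ω).head?.map Prod.fst) = some none

/-- the data -/
structure Sy (d : ℕ) (Ω : Type) (α : Type) where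
  X : Ω → Fin d → ℝ
  Q : Ω → Fin d → ℝ
  t : Ω → ℝ
  /-- side variable -/
  A : Ω → α
  /-- the word -/
  w : ℕ → Ω → Sta d
  /-- block size -/
  m : ℕ
  /-- size of an isotropic step -/
  p : ℕ
  /-- margin -/
  κ : ℕ
  /-- first time level -/
  a0 : ℕ

namespace Sy

variable {Ω α : Type} (S : Sy d Ω α)

/-- time level of the step `i` -/
def lt (i : ℕ) : ℕ := S.a0 + S.m * i

/-- the line -/
def ray (ω : Ω) : (Fin d → ℝ) × (Fin d → ℝ) := (S.X ω, S.Q ω)

/-- the time known at step `i` -/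
noncomputable def T (i : ℕ) (ω : Ω) : ℤ := fl1 (S.lt i) (S.t ω)

/-- the position at the rounded time -/
noncomputable def pos (a : ℕ) (ω : Ω) : Fin d → ℝ := fun l => S.X ω l + rd a (S.t ω) * S.Q ω l

/-- the frame of the state `j` -/
noncomputable def F (j : ℕ) (ω : Ω) : Fr d := fr S.m S.p (S.w j ω)

/-- the position at the time of step `i'`, frame `j`, unit `2^-(lt i)` -/
noncomputable def ps (i' i j : ℕ) (ω : Ω) : Fin d → ℝ :=
  fun k => 2 ^ S.lt i * ap (S.F j ω) (S.pos (S.lt i') ω) k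

/-- the cell without join -/
noncomputable def base (i j : ℕ) (ω : Ω) : α × ℤ × Sta d × (Fin d → ℤ) :=
  (S.A ω, S.T i ω, S.w j ω, fun k => ⌊S.ps i i j ω k / 2 ^ S.κ⌋)

/-- the cell : join of the `base i' j'`, `i' ≤ i`, `j' ≤ j` -/
noncomputable def J (i j : ℕ) (ω : Ω) : ℕ → ℕ → Option (α × ℤ × Sta d × (Fin d → ℤ)) :=
  fun i' j' => if i' ≤ i ∧ j' ≤ j then some (S.base i' j' ω) else none

/-- the end: time and position to `h` digits -/
noncomputable def Zh (h : ℕ) (ω : Ω) : ℤ × (Fin d → ℤ) :=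
  (fl1 h (S.t ω), fun k => fl1 h (S.pos h ω k))

/-- everything is normalised -/
structure Nrm [Fintype Ω] (P : Law Ω) : Prop where
  Q1 : ∀ ω, 0 < P.w ω → ∀ l, |S.Q ω l| ≤ 1
  t0 : ∀ ω, 0 < P.w ω → 0 ≤ S.t ω
  t1 : ∀ ω, 0 < P.w ω → S.t ω ≤ 1
  wd : IsWd S.m S.p S.Q S.w

/-- translated positions -/
def trn (o : Fin d → ℝ) : Sy d Ω α := { S with X := fun ω l => S.X ω l + o l }

end Sy

/-- a slab (frame `A ω`) chosen as a function of the variable `C` has mass at most `e` -/
def PlB {γ : Type*} {Ω' : Type} [Fintype Ω'] (P : Law Ω') (m : ℕ) (A : Ω' → Fr d)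
    (Q : Ω' → Fin d → ℝ) (C : Ω' → γ) (e : ℝ) : Prop :=
  ∀ π : γ → Fin d × (Fin d → ℤ) × ℤ, (∀ z, okc m (π z).2.1) →
    prE P (fun ω => sl m (A ω) (Q ω) (π (C ω))) ≤ e

end Vale.Agent.P106.U.EndA
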