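import Vale.Agent.P106.U.H611.CoreA

/-!
# P106 / U / H611 : the composition `PCore d` (END7, Case A)
-/

set_option autoImplicit false

namespace Vale.Agent.P106.U.EndA

open Finset Vale.Agent.P127 Vale.Agent.P127.Stk Vale.Agent.P127.U.CellD Vale.Agent.P127.U.Mic

variable {d : ℕ} {Ω α : Type}

/-- the counted steps are steps `< n` -/
theorem sum_St_range {K1 L1 n : ℕ} (hK : 1 ≤ K1) (f : ℕ → ℝ) (hf : ∀ j, 0 ≤ f j)
    (V : ℕ) (hV : L1 * V ≤ n) :
    ∑ y ∈ H833.St (fun v => L1 * v) (fun v => L1 * (v + 1) - K1) V, f y.2 ≤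
      ∑ j ∈ range n, f j := by
  have key : ∑ y ∈ H833.St (fun v => L1 * v) (fun v => L1 * (v + 1) - K1) V, f y.2 ≤
      ∑ j ∈ range (L1 * V), f j := by
    clear hV
    rw [H833.sum_St _ _ V (fun _ j => f j)]
    induction V with
    | zero => simp
    | succ V ih =>
      rw [Finset.sum_range_succ]
      have h1 : ∑ j ∈ Ioc (L1 * V) (L1 * (V + 1) - K1), f j ≤
          ∑ j ∈ Ico (L1 * V) (L1 * (V + 1)), f j := by
        refine Finset.sum_le_sum_of_subset_of_nonneg ?_ fun j _ _ => hf j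
        intro j hj
        rw [Finset.mem_Ioc] at hj
        rw [Finset.mem_Ico]
        omega
      have h2 := Finset.sum_range_add_sum_Ico f (show L1 * V ≤ L1 * (V + 1) by gcongr; omega)
      linarith
  refine key.trans (Finset.sum_le_sum_of_subset_of_nonneg ?_ fun j _ _ => hf j)
  intro j hj
  rw [Finset.mem_range] at hj ⊢
  omega

theorem card_St {K1 L1 : ℕ} (V : ℕ) :
    (H833.St (fun v => L1 * v) (fun v => L1 * (v + 1) - K1) V).card = V * (L1 - K1) := by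
  unfold H833.St
  rw [Finset.card_sigma]
  have : ∀ v ∈ range V, (Ioc (L1 * v) (L1 * (v + 1) - K1)).card = L1 - K1 := by
    intro v _
    rw [Nat.card_Ioc]
    have : L1 * (v + 1) = L1 * v + L1 := by ring
    omega
  rw [Finset.sum_congr rfl this, Finset.sum_const, Finset.card_range, smul_eq_mul]

theorem sqrt_mul_le {a y : ℝ} (ha : 0 ≤ a) : Real.sqrt (a * y) ≤ (a + 1) * Real.sqrt y := by
  rw [Real.sqrt_mul ha]
  refine mul_le_mul_of_nonneg_right ?_ (Real.sqrt_nonneg _)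
  rw [Real.sqrt_le_left (by linarith)]
  nlinarith

theorem n1 {d m n M K1 V N p : ℝ} (rm : 1 ≤ m) (rM : 1 ≤ M) (rmK : m * K1 ≤ p)
    (rV1 : V * (M * K1) ≤ n) (rV2 : n ≤ V * (M * K1) + M * K1) (rN : N ≤ n)
    (rN2 : N + V * K1 = V * (M * K1)) (rd0 : 0 ≤ d) :
    d * (m * n) * Real.log 2 - N * (d * m * Real.log 2) ≤ d * (M * p) + d * (m * n / M) := by
  have hlog2 : 0 < Real.log 2 := Real.log_pos (by norm_num)
  have hlog2' : Real.log 2 ≤ 1 := by
    have := Real.log_two_lt_d9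
    linarith
  have g1 : n - N ≤ M * K1 + V * K1 := by linarith
  have g2 : V * K1 ≤ n / M := by
    rw [le_div_iff₀ (by linarith)]
    linarith
  have g3 : d * (m * n) * Real.log 2 - N * (d * m * Real.log 2) =
      d * m * Real.log 2 * (n - N) := by ring
  rw [g3]
  calc d * m * Real.log 2 * (n - N) ≤ d * m * 1 * (M * K1 + n / M) := by
        have h1 : 0 ≤ n - N := by linarith
        have h2 : n - N ≤ M * K1 + n / M := by linarith
        have h3 : d * m * Real.log 2 ≤ d * m * 1 :=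
          mul_le_mul_of_nonneg_left hlog2' (by positivity)
        exact mul_le_mul h3 h2 h1 (by positivity)
    _ = d * (M * (m * K1)) + d * (m * n / M) := by ring
    _ ≤ d * (M * p) + d * (m * n / M) := by gcongr

theorem n3 {cS cE c m n j0 M N p ε X : ℝ} (rm : 1 ≤ m) (rM : 1 ≤ M) (rmp : m ≤ p)
    (rN : N ≤ n) (rN0 : 0 ≤ N) (rS0 : 0 ≤ cS) (rE0 : 0 ≤ cE) (rEc : cE ≤ c) (hε : 0 ≤ ε)
    (hj : 0 ≤ j0) (hX : 0 < X) (hκ : c * ((n + 1) * (j0 + 1)) ^ 2 ≤ X) :
    cS * m * (ε * n + N * (ε + cE * ((n + 1) * (j0 + 1)) / X)) ≤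
      2 * cS * (m * n * ε) + cS * (M * p) := by
  have hn : 0 ≤ n := rN0.trans rN
  have hX' : 0 < (n + 1) * (j0 + 1) := by positivity
  have g1 : N * (cE * ((n + 1) * (j0 + 1)) / X) ≤ 1 := by
    rw [mul_div_assoc', div_le_one hX]
    refine le_trans ?_ hκ
    have g2 : N ≤ (n + 1) * (j0 + 1) := by nlinarith
    calc N * (cE * ((n + 1) * (j0 + 1))) ≤
        ((n + 1) * (j0 + 1)) * (c * ((n + 1) * (j0 + 1))) := by
          have : 0 ≤ cE * ((n + 1) * (j0 + 1)) := by positivity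
          exact mul_le_mul g2 (mul_le_mul_of_nonneg_right rEc hX'.le) this hX'.le
      _ = c * ((n + 1) * (j0 + 1)) ^ 2 := by ring
  have g4 : ε * n + N * (ε + cE * ((n + 1) * (j0 + 1)) / X) ≤ 2 * (n * ε) + 1 := by
    have : N * ε ≤ n * ε := mul_le_mul_of_nonneg_right rN hε
    rw [mul_add]
    linarith
  have g5 : m ≤ M * p := by nlinarith
  calc cS * m * (ε * n + N * (ε + cE * ((n + 1) * (j0 + 1)) / X)) ≤
      cS * m * (2 * (n * ε) + 1) := mul_le_mul_of_nonneg_left g4 (by positivity)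
    _ = 2 * cS * (m * n * ε) + cS * m := by ring
    _ ≤ 2 * cS * (m * n * ε) + cS * (M * p) := by
        have := mul_le_mul_of_nonneg_left g5 rS0
        linarith

theorem n4 {d n M K1 N p : ℝ} (rM : 0 ≤ M) (rK : K1 ≤ p) (rK0 : 0 ≤ K1) (rp : 1 ≤ p)
    (rN : N ≤ n) (rN0 : 0 ≤ N) (rd0 : 0 ≤ d) :
    Real.sqrt (N * ((M * K1) * (d * (p + 2) * Real.log 2))) ≤
      (3 * d + 1) * Real.sqrt (n * (M * p * p)) := by
  have hlog2 : 0 < Real.log 2 := Real.log_pos (by norm_num)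
  have hlog2' : Real.log 2 ≤ 1 := by
    have := Real.log_two_lt_d9
    linarith
  refine le_trans ?_ (sqrt_mul_le (by positivity))
  refine Real.sqrt_le_sqrt ?_
  have h1 : M * K1 ≤ M * p := mul_le_mul_of_nonneg_left rK rM
  have h2 : d * (p + 2) * Real.log 2 ≤ d * (3 * p) * 1 := by
    have h3 : d * (p + 2) ≤ d * (3 * p) := mul_le_mul_of_nonneg_left (by linarith) rd0
    exact mul_le_mul h3 hlog2' hlog2.le (by positivity)
  have h4 : (M * K1) * (d * (p + 2) * Real.log 2) ≤ (M * p) * (d * (3 * p) * 1) :=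
    mul_le_mul h1 h2 (by positivity) (by positivity)
  calc N * ((M * K1) * (d * (p + 2) * Real.log 2)) ≤ n * ((M * p) * (d * (3 * p) * 1)) :=
        mul_le_mul rN h4 (by positivity) (rN0.trans rN)
    _ = 3 * d * (n * (M * p * p)) := by ring

theorem n5 {m n M K1 N p b : ℝ} (rM : 0 ≤ M) (rm : 0 ≤ m) (rK0 : 0 ≤ K1) (rmK : m * K1 ≤ p)
    (rN : N ≤ n) (rN0 : 0 ≤ N) (hb : 0 ≤ b) :
    N * Real.sqrt (1 * ((m * (M * K1)) * Real.log 2) / b) ≤ n * Real.sqrt (M * p / b) := by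
  have hlog2 : 0 < Real.log 2 := Real.log_pos (by norm_num)
  have hlog2' : Real.log 2 ≤ 1 := by
    have := Real.log_two_lt_d9
    linarith
  refine mul_le_mul rN (Real.sqrt_le_sqrt ?_) (Real.sqrt_nonneg _) (rN0.trans rN)
  refine div_le_div_of_nonneg_right ?_ hb
  have h1 : m * (M * K1) * Real.log 2 ≤ m * (M * K1) * 1 :=
    mul_le_mul_of_nonneg_left hlog2' (by positivity)
  have h2 : M * (m * K1) ≤ M * p := mul_le_mul_of_nonneg_left rmK rM
  linarith

theorem n6 {cS c c' d m : ℕ} {x y u v : ℝ} (hm : 1 ≤ m) (hc' : 3 * d + 1 ≤ 2 ^ c')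
    (hc : cS + c' ≤ c) (hx : x ≤ (3 * d + 1) * u) (hy : y ≤ v) (hu : 0 ≤ u) (hv : 0 ≤ v) :
    (2 : ℝ) ^ (cS * m) * (x + y) ≤ (2 : ℝ) ^ (c * m) * (u + v) := by
  have g1 : (3 * (d : ℝ) + 1) ≤ 2 ^ c' := by exact_mod_cast hc'
  have g2 : (2 : ℝ) ^ (cS * m) * 2 ^ c' ≤ 2 ^ (c * m) := by
    rw [← pow_add]
    refine pow_le_pow_right₀ (by norm_num) ?_
    have : c' * 1 ≤ c' * m := Nat.mul_le_mul_left _ hm
    have h2 : (cS + c') * m ≤ c * m := Nat.mul_le_mul_right _ hc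
    rw [add_mul] at h2
    omega
  have g0 : (1 : ℝ) ≤ 3 * d + 1 := by
    have : (0 : ℝ) ≤ d := by positivity
    linarith
  have h3 : v ≤ (3 * d + 1) * v := le_mul_of_one_le_left hv g0
  have h4 : x + y ≤ (3 * d + 1) * (u + v) := by
    rw [mul_add]
    linarith
  have huv : 0 ≤ u + v := by linarith
  calc (2 : ℝ) ^ (cS * m) * (x + y) ≤ (2 : ℝ) ^ (cS * m) * ((3 * d + 1) * (u + v)) :=
        mul_le_mul_of_nonneg_left h4 (by positivity)
    _ = (2 : ℝ) ^ (cS * m) * (3 * d + 1) * (u + v) := by ring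
    _ ≤ (2 : ℝ) ^ (cS * m) * 2 ^ c' * (u + v) :=
        mul_le_mul_of_nonneg_right (mul_le_mul_of_nonneg_left g1 (by positivity)) huv
    _ ≤ _ := mul_le_mul_of_nonneg_right g2 huv

theorem n7 {d cS cE c n me mM Mp : ℝ} (hn : 0 ≤ n) (hme : 0 ≤ me) (hmM : 0 ≤ mM) (hMp : 1 ≤ Mp)
    (hd : 0 ≤ d) (hS : 0 ≤ cS) (hE : 0 ≤ cE) (hc : 2 * cS + d + cE ≤ c) :
    d * Mp + d * mM + cS * n + (2 * cS * me + cS * Mp) + cE ≤ c * (n + me + mM + Mp) := by
  have t1 : cS * n ≤ c * n := mul_le_mul_of_nonneg_right (by linarith) hn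
  have t2 : 2 * cS * me ≤ c * me := mul_le_mul_of_nonneg_right (by linarith) hme
  have t3 : d * mM ≤ c * mM := mul_le_mul_of_nonneg_right (by linarith) hmM
  have t4 : cE ≤ cE * Mp := le_mul_of_one_le_right hE hMp
  have t5 : (d + cS + cE) * Mp ≤ c * Mp := mul_le_mul_of_nonneg_right (by linarith) (by linarith)
  linarith

/-- the final inequality -/
theorem fin_num {d cS cE c c' m p κ n j0 M K1 V b : ℕ} {ε : ℝ} (hm : 1 ≤ m) (hM : 1 ≤ M)
    (hK1 : 1 ≤ K1) (hmK : m * K1 ≤ p) (hV1 : V * (M * K1) ≤ n) (hV2 : n ≤ V * (M * K1) + M * K1)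
    (hc' : 3 * d + 1 ≤ 2 ^ c') (hc : 2 * cS + d + cE + c' ≤ c) (hε : 0 ≤ ε)
    (hκ : (c : ℝ) * ((n + 1) * (j0 + 1)) ^ 2 ≤ 2 ^ κ) :
    (d : ℝ) * (m * n) * Real.log 2 - c * (n + m * n * ε + m * n / M + M * p) -
        (2 : ℝ) ^ (c * m) * (Real.sqrt (n * (M * p * p)) + n * Real.sqrt (M * p / b)) ≤
      ((V * (M * K1 - K1) : ℕ) : ℝ) * (d * m * Real.log 2) -
        (((V * (M * K1 - K1) : ℕ) : ℝ) * cS + cS * m * (ε * n + ((V * (M * K1 - K1) : ℕ) : ℝ) *
          (ε + cE * ((n + 1) * (j0 + 1)) / 2 ^ κ)) +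
        2 ^ (cS * m) * (Real.sqrt (((V * (M * K1 - K1) : ℕ) : ℝ) * ((M * K1 : ℕ) *
          (d * (p + 2) * Real.log 2))) + ((V * (M * K1 - K1) : ℕ) : ℝ) *
          Real.sqrt ((1 : ℕ) * ((m * (M * K1) : ℕ) * Real.log 2) / b))) - cE := by
  set N : ℕ := V * (M * K1 - K1) with hN
  have hNn : N ≤ n := by
    refine le_trans ?_ hV1
    rw [hN]
    exact Nat.mul_le_mul_left _ (Nat.sub_le _ _)
  have hN2 : N + V * K1 = V * (M * K1) := by
    rw [hN, ← Nat.mul_add, Nat.sub_add_cancel (Nat.le_mul_of_pos_left _ hM)]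
  -- real versions
  have rm : (1 : ℝ) ≤ m := by exact_mod_cast hm
  have rM : (1 : ℝ) ≤ M := by exact_mod_cast hM
  have rK : (1 : ℝ) ≤ K1 := by exact_mod_cast hK1
  have rmK : (m : ℝ) * K1 ≤ p := by exact_mod_cast hmK
  have rV1 : (V : ℝ) * (M * K1) ≤ n := by exact_mod_cast hV1
  have rV2 : (n : ℝ) ≤ V * (M * K1) + M * K1 := by exact_mod_cast hV2
  have rN : (N : ℝ) ≤ n := by exact_mod_cast hNn
  have rN2 : (N : ℝ) + V * K1 = V * (M * K1) := by exact_mod_cast hN2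
  have rN0 : (0 : ℝ) ≤ N := by positivity
  have rd0 : (0 : ℝ) ≤ d := by positivity
  have rn0 : (0 : ℝ) ≤ n := by positivity
  have rS0 : (0 : ℝ) ≤ cS := by positivity
  have rE0 : (0 : ℝ) ≤ cE := by positivity
  have rp : (1 : ℝ) ≤ p := by nlinarith
  have rmp : (m : ℝ) ≤ p := by nlinarith
  have rKp : (K1 : ℝ) ≤ p := by nlinarith
  have rc : 2 * (cS : ℝ) + d + cE + c' ≤ c := by exact_mod_cast hc
  have rc'0 : (0 : ℝ) ≤ c' := by positivity
  have hMp : (1 : ℝ) ≤ M * p := by nlinarith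
  have f1 := n1 rm rM rmK rV1 rV2 rN rN2 rd0
  have f2 : (N : ℝ) * cS ≤ cS * n := by nlinarith
  have f3 := n3 (cS := cS) (cE := cE) (c := c) (j0 := j0) rm rM rmp rN rN0 rS0 rE0 (by linarith)
    hε (by positivity) (by positivity : (0 : ℝ) < 2 ^ κ) hκ
  have f4 := n4 (M := M) (by positivity) rKp (by positivity) rp rN rN0 rd0
  have f5 := n5 (m := m) (M := M) (b := b) (by positivity) (by positivity) (by positivity) rmK rN
    rN0 (by positivity)
  have f6 := n6 (cS := cS) (c := c) hm hc' (by omega) f4 f5 (Real.sqrt_nonneg _)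
    (mul_nonneg rn0 (Real.sqrt_nonneg _))
  have f7 := n7 (d := d) (cS := cS) (cE := cE) (c := c) rn0
    (by positivity : (0 : ℝ) ≤ m * n * ε) (by positivity : (0 : ℝ) ≤ m * n / M) hMp rd0 rS0 rE0
    (by linarith)
  push_cast
  linarith

theorem pCore (d : ℕ) : PCore d := by
  obtain ⟨cS, hS⟩ := pSat d
  obtain ⟨cE, hE⟩ := H996.pEnd d
  obtain ⟨c', hc'⟩ : ∃ c' : ℕ, 3 * d + 1 ≤ 2 ^ c' := by
    obtain ⟨n, hn⟩ := pow_unbounded_of_one_lt (3 * d + 1) (by norm_num : 1 < 2)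
    exact ⟨n, hn.le⟩
  refine ⟨2 * cS + d + cE + c' + 1, ?_⟩
  intro Ω _ α P S n j0 h M B ε hN hm hp hmκ hM hκa hh hBne hBlt hiso hpl hact hε hκ
  set c := 2 * cS + d + cE + c' + 1 with hcdef
  have hc1 : (cS + 1) * S.m ≤ c * S.m := Nat.mul_le_mul_right _ (by omega)
  have hcE : cE * j0 ≤ c * j0 := Nat.mul_le_mul_right _ (by omega)
  have hmp : S.m ≤ S.p := by
    have : 1 * S.m ≤ c * S.m := Nat.mul_le_mul_right _ (by omega)
    omega
  have hcE' : (j0 + 1) * (S.p + cE) ≤ (j0 + 1) * (S.p + c) := Nat.mul_le_mul_left _ (by omega)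
  obtain ⟨o, _, ho⟩ := hE P S n j0 h hN hm hmp (by omega) (by omega)
  set S1 := S.trn o with hS1
  have hN1 : S1.Nrm P := ⟨hN.Q1, hN.t0, hN.t1, hN.wd⟩
  -- the windows
  set K1 := S.κ / S.m + cS + 1 with hK1
  have hK1a : S.κ + cS * S.m ≤ S.m * K1 := by
    have h1 := Nat.div_add_mod S.κ S.m
    have h2 := Nat.mod_lt S.κ (show 0 < S.m by omega)
    have h3 : S.m * K1 = S.m * (S.κ / S.m) + cS * S.m + S.m := by rw [hK1]; ring
    omega
  have hK1b : S.m * K1 ≤ S.p := by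
    have h1 := Nat.div_add_mod S.κ S.m
    have h3 : S.m * K1 = S.m * (S.κ / S.m) + (cS + 1) * S.m := by rw [hK1]; ring
    omega
  have hK1c : 1 ≤ K1 := Nat.succ_le_succ (Nat.zero_le _)
  have hK1L : K1 ≤ M * K1 := Nat.le_mul_of_pos_left _ hM
  set L1 := M * K1 with hL1
  have hL1p : 1 ≤ L1 := hK1c.trans hK1L
  set V := n / L1 with hV
  have hV1 : L1 * V ≤ n := Nat.mul_div_le n L1
  have hV2 : n ≤ V * L1 + L1 := by
    have := Nat.lt_mul_div_succ n (show 0 < L1 by omega)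
    rw [← hV] at this
    have e : L1 * (V + 1) = V * L1 + L1 := by ring
    omega
  have hwins : H833.Wins (fun v => L1 * v) (fun v => L1 * (v + 1) - K1) L1 := by
    refine ⟨fun v => ?_, fun v => Nat.sub_le _ _, fun v => ?_⟩
    · show L1 * v ≤ L1 * (v + 1) - K1
      have : L1 * (v + 1) = L1 * v + L1 := by ring
      omega
    · show L1 * (v + 1) ≤ L1 * v + L1
      exact le_of_eq (by ring)
  have hmin : ∀ x ∈ B, min x j0 = x := fun x hx => min_eq_left (hBlt x hx).le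
  have hmin1 : ∀ x ∈ B, min (x + 1) j0 = x + 1 := fun x hx => min_eq_left (hBlt x hx)
  -- slabs
  set e : ℝ := ε + cE * ((n + 1) * (j0 + 1)) / 2 ^ S.κ with he
  have hple : ∀ x ∈ B, ∀ j ≤ n, PlB P S1.m (S1.F x) S1.Q (S1.J j x) e := by
    intro x hx j hj
    obtain ⟨⟨Φ, hΦ⟩, _⟩ := ho j hj x (hBlt x hx).le
    exact pl_J (S := S1) (hpl x hx) ⟨Φ, hΦ⟩
  have hjn : ∀ v < V, ∀ j, j ≤ L1 * (v + 1) - K1 → j ≤ n := by
    intro v hv j hj
    have h1 : L1 * (v + 1) ≤ L1 * V := Nat.mul_le_mul_left _ hv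
    omega
  have hlt : ∀ v j, j ≤ L1 * (v + 1) - K1 → L1 * v < j →
      S1.lt j + S1.κ + cS * S1.m ≤ S1.lt (L1 * (v + 1)) := by
    intro v j hj hj'
    have h1 : L1 * (v + 1) = L1 * v + L1 := by ring
    have h2 : j + K1 ≤ L1 * (v + 1) := by omega
    have h3 : S.m * (j + K1) ≤ S.m * (L1 * (v + 1)) := Nat.mul_le_mul_left _ h2
    show S.a0 + S.m * j + S.κ + cS * S.m ≤ S.a0 + S.m * (L1 * (v + 1))
    rw [Nat.mul_add] at h3
    omega
  have hmic := H833.mic_abs P (lA S1 j0) S1.T (fun j x => S1.J j (min x j0))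
    (fun x => dat (P := P) (S := S1) hN1.wd (min_le_right x j0))
    (fun j {x y} hxy => Fn_J le_rfl (min_le_min_right j0 hxy)) hwins V B hBne 1
    (fun x => S1.w (x + 1)) (Hη := d * (S.p + 2) * Real.log 2) (fun x hx => by
      show hc P (S1.w (x + 1)) (S1.J 0 (min x j0)) ≤ _
      rw [hmin x hx]
      exact hc_w_le (S := S1) hN1 (hiso x hx) 0)
    (fun v _ => S1.T (L1 * (v + 1))) (HΘ := (S.m * L1 : ℕ) * Real.log 2) (fun v _ j h1 h2 => by
      show hc P (S1.T (L1 * (v + 1))) (S1.J j (min 0 j0)) ≤ _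
      have h3 : L1 * (v + 1) = L1 * v + L1 := by ring
      refine (hc_T_le (P := P) (S := S1) (show j ≤ L1 * (v + 1) by
        have : j ≤ L1 * (v + 1) - K1 := h2
        omega) _).trans ?_
      have h4 : S1.m * (L1 * (v + 1) - j) ≤ S.m * L1 := Nat.mul_le_mul_left _ (by
        have : L1 * v < j := h1
        omega)
      have h5 : ((S1.m * (L1 * (v + 1) - j) : ℕ) : ℝ) ≤ ((S.m * L1 : ℕ) : ℝ) := by exact_mod_cast h4
      have hlog2 : 0 < Real.log 2 := Real.log_pos (by norm_num)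
      gcongr)
    (G := (2 : ℝ) ^ (cS * S.m)) (by positivity) (fun _ _ => d * S.m * Real.log 2)
    (fun _ j x => cS + cS * S.m * (colp P (S1.T (j + 1)) (S1.J j (min x j0)) + e))
    (fun v j x => hc P (fun ω k => ⌊S1.ps (L1 * (v + 1)) j x ω k⌋)
        (fun ω => ((fun k => ⌊S1.ps (L1 * (v + 1)) j x ω k / 2 ^ S1.m⌋), S1.J j x ω,
          S1.T (L1 * (v + 1)) ω)))
    (fun v hv j h1 h2 x hx => by
      show d * S.m * Real.log 2 - (cS + cS * S.m * (colp P (S1.T (j + 1)) (S1.J j (min x j0)) + e) +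
        2 ^ (cS * S.m) * (Real.sqrt (mi P (S1.w (x + 1)) (S1.J (L1 * (v + 1)) (min x j0))
          (S1.J j (min x j0))) + Real.sqrt (mi P (S1.T (L1 * (v + 1))) (S1.J j (min (x + 1) j0))
          (S1.J j (min x j0))))) ≤ _
      rw [hmin x hx, hmin1 x hx]
      have e1 : (S1.T (j + 1)) = fun ω => fl1 (S1.lt j + S1.m) (S1.t ω) := by
        funext ω
        unfold Sy.T
        have : S1.lt (j + 1) = S1.lt j + S1.m := by unfold Sy.lt; ring
        rw [this]
      rw [e1]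
      refine hS P S1 j (L1 * (v + 1)) x e _ _ hN1 hm ?_ (hlt v j h2 h1) (hiso x hx)
        (hple x hx j (hjn v hv j h2)) le_rfl le_rfl
      have : cS * S.m ≤ c * S.m := Nat.mul_le_mul_right _ (by omega)
      show cS * S.m + S.κ ≤ S.p
      omega)
    (fun v hv x hx => by
      show ∑ j ∈ Ioc (L1 * v) (L1 * (v + 1) - K1), _ ≤
        mi P (lA S1 j0) (S1.J (L1 * (v + 1)) (min x j0)) (S1.J (L1 * v) (min x j0))
      rw [hmin x hx]
      have h3 : L1 * (v + 1) = L1 * v + L1 := by ring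
      refine count (P := P) (S := S1) hN1.wd (hBlt x hx).le (by omega) (by omega) ?_
      have h4 : S.m * (L1 * (v + 1) - K1) + S.m * K1 = S.m * (L1 * (v + 1)) := by
        rw [← Nat.mul_add]
        congr 1
        omega
      show S.a0 + S.m * (L1 * (v + 1) - K1) + S.κ ≤ S.a0 + S.m * (L1 * (v + 1))
      omega)
  obtain ⟨x, hx, hmic⟩ := hmic
  rw [hmin x hx] at hmic
  -- the end
  have hend := fin_mi (P := P) (S1 := S1) ⟨o, rfl⟩ hN (n' := L1 * V) (j0 := j0) (h := h)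
    (c := cE) (hBlt x hx).le ((ho (L1 * V) hV1 x (hBlt x hx).le).2 (by
      refine le_trans ?_ hκ
      have : (cE : ℝ) ≤ c := by
        have : cE ≤ c := by omega
        exact_mod_cast this
      gcongr))
  -- the collisions
  have hcol : ∑ y ∈ H833.St (fun v => L1 * v) (fun v => L1 * (v + 1) - K1) V,
      colp P (S1.T (y.2 + 1)) (S1.J y.2 x) ≤ ε * n := by
    have h1 : ∑ y ∈ H833.St (fun v => L1 * v) (fun v => L1 * (v + 1) - K1) V,
        colp P (S1.T (y.2 + 1)) (S1.J y.2 x) ≤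
        ∑ y ∈ H833.St (fun v => L1 * v) (fun v => L1 * (v + 1) - K1) V,
          colp P (S.T (y.2 + 1)) (fun ω => (S.ray ω, (S.A ω, S.w j0 ω), S.T y.2 ω)) := by
      refine Finset.sum_le_sum fun y _ => ?_
      refine colp_mono_cond P _ ?_
      intro ω ω' p p' e
      refine Fn_J_l (P := P) (S := S1) hN1.wd (hBlt x hx).le ω ω' p p' ?_
      have e1 : S.ray ω = S.ray ω' := congrArg Prod.fst e
      have e2 : (S.A ω, S.w j0 ω) = (S.A ω', S.w j0 ω') := congrArg (fun z => z.2.1) e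
      have e3 : S.T y.2 ω = S.T y.2 ω' := congrArg (fun z => z.2.2) e
      have e4 : S.X ω = S.X ω' := congrArg Prod.fst e1
      have e5 : S.Q ω = S.Q ω' := congrArg Prod.snd e1
      have e6 : S1.ray ω = S1.ray ω' := by
        show ((fun l => S.X ω l + o l), S.Q ω) = ((fun l => S.X ω' l + o l), S.Q ω')
        rw [e4, e5]
      have e7 : lA S1 j0 ω = lA S1 j0 ω' := Prod.ext e6 e2
      exact Prod.ext e7 e3
    refine h1.trans (le_trans ?_ hact)
    exact sum_St_range hK1c (fun j => colp P (S.T (j + 1))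
      (fun ω => (S.ray ω, (S.A ω, S.w j0 ω), S.T j ω))) (fun j => colp_nonneg P _ _) V hV1
  have hsum : ∑ y ∈ H833.St (fun v => L1 * v) (fun v => L1 * (v + 1) - K1) V,
      ((cS : ℝ) + cS * S.m * (colp P (S1.T (y.2 + 1)) (S1.J y.2 x) + e)) ≤
      ((V * (L1 - K1) : ℕ) : ℝ) * cS + cS * S.m * (ε * n + ((V * (L1 - K1) : ℕ) : ℝ) * e) := by
    rw [Finset.sum_add_distrib, Finset.sum_const, card_St, nsmul_eq_mul, ← Finset.mul_sum,
      Finset.sum_add_distrib, Finset.sum_const, card_St, nsmul_eq_mul]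
    gcongr
  have hfull : ∑ y ∈ H833.St (fun v => L1 * v) (fun v => L1 * (v + 1) - K1) V,
      ((d : ℝ) * S.m * Real.log 2) = ((V * (L1 - K1) : ℕ) : ℝ) * (d * S.m * Real.log 2) := by
    rw [Finset.sum_const, card_St, nsmul_eq_mul]
  rw [hfull, card_St] at hmic
  have hnum := fin_num (d := d) (cS := cS) (cE := cE) (c := c) (c' := c') (m := S.m) (p := S.p)
    (κ := S.κ) (n := n) (j0 := j0) (M := M) (K1 := K1) (V := V) (b := B.card) (ε := ε) hm hM hK1c
    hK1b (by rw [mul_comm]; exact hV1) hV2 hc' (by omega) hε hκ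
  refine le_trans hnum ?_
  have hmic' : mi P (lA S1 j0) (S1.J (L1 * V) x) (S1.J (L1 * 0) x) =
      mi P (lA S1 j0) (S1.J (L1 * V) x) (S1.J 0 x) := by rw [mul_zero]
  rw [← hL1, ← he]
  linarith [hmic, hend, hsum, hmic']

end Vale.Agent.P106.U.EndA
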