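import Vale.Agent.P106.U.H611.Sat
import Vale.Agent.P106.U.H996.End
import Vale.Agent.P106.U.H833.MicAbs

/-!
# P106 / U / H611 : lemmas for the composition `PCore` (END7, Case A)

* `Fn_J_l`, `Fn_J`, `dat` : the cells are nested and functions of `(ray, A, w j0)` and of the time.
* `hc_w_le` the digits of an isotropic step, `hc_T_le` the digits of the time.
* `count` sum of the blocks of one window. `pl_J` slabs given the cell. `fin_mi` the end.
-/

set_option autoImplicit false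

namespace Vale.Agent.P106.U.EndA

open Finset Vale.Agent.P127 Vale.Agent.P127.Stk Vale.Agent.P127.U.CellD Vale.Agent.P127.U.Mic

variable {d : ℕ} {Ω α : Type} [Fintype Ω] {P : Law Ω}

/-- the line, the side variable, the word -/
def lA (S : Sy d Ω α) (j0 : ℕ) (ω : Ω) : ((Fin d → ℝ) × (Fin d → ℝ)) × (α × Sta d) :=
  (S.ray ω, (S.A ω, S.w j0 ω))

omit [Fintype Ω] in
theorem lt_le {S : Sy d Ω α} {i i' : ℕ} (h : i ≤ i') : S.lt i ≤ S.lt i' := by
  unfold Sy.lt
  gcongr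

theorem Fn_T (S : Sy d Ω α) {i i' : ℕ} (h : i ≤ i') : Fn P (S.T i) (S.T i') :=
  fun _ _ _ _ e => fl1_fl1 (lt_le h) e

theorem Fn_J_l {S : Sy d Ω α} (hw : IsWd S.m S.p S.Q S.w) {i x j0 : ℕ} (hx : x ≤ j0) :
    Fn P (S.J i x) (fun ω => (lA S j0 ω, S.T i ω)) := by
  intro ω ω' _ _ e
  have e0 : lA S j0 ω = lA S j0 ω' := congrArg Prod.fst e
  have eT : S.T i ω = S.T i ω' := congrArg Prod.snd e
  have eR : S.ray ω = S.ray ω' := congrArg Prod.fst e0
  have eX : S.X ω = S.X ω' := congrArg Prod.fst eR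
  have eQ : S.Q ω = S.Q ω' := congrArg Prod.snd eR
  have eA : S.A ω = S.A ω' := congrArg (fun z => z.2.1) e0
  have ew : S.w j0 ω = S.w j0 ω' := congrArg (fun z => z.2.2) e0
  refine (H996.J_iff S).2 fun i' hi' j' hj' => ?_
  have eT' : S.T i' ω = S.T i' ω' := fl1_fl1 (lt_le hi') eT
  have ew' : S.w j' ω = S.w j' ω' := H996.wd_pred hw (hj'.trans hx) ew
  unfold Sy.base
  refine Prod.ext eA (Prod.ext eT' (Prod.ext ew' ?_))
  funext k
  show ⌊S.ps i' i' j' ω k / 2 ^ S.κ⌋ = ⌊S.ps i' i' j' ω' k / 2 ^ S.κ⌋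
  rw [ps_eq, ps_eq]
  have hF : S.F j' ω = S.F j' ω' := by unfold Sy.F; rw [ew']
  have hr : rd (S.lt i') (S.t ω) = rd (S.lt i') (S.t ω') := by
    unfold rd
    have := eT'
    unfold Sy.T at this
    rw [this]
  rw [hF, hr, eX, eQ]

theorem Fn_J {S : Sy d Ω α} {i x i' x' : ℕ} (hi : i ≤ i') (hx : x ≤ x') :
    Fn P (S.J i x) (S.J i' x') := by
  intro ω ω' _ _ e
  refine (H996.J_iff S).2 fun a ha b hb => ?_
  exact J_base e (ha.trans hi) (hb.trans hx)

theorem Fn_J_T {S : Sy d Ω α} (i x : ℕ) : Fn P (S.T i) (S.J i x) :=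
  fun _ _ _ _ e => base_T (J_base e le_rfl (Nat.zero_le x))

theorem dat {S : Sy d Ω α} (hw : IsWd S.m S.p S.Q S.w) {j0 x : ℕ} (hx : x ≤ j0) :
    Dat P (lA S j0) S.T (fun j => S.J j x) where
  TT := fun h => Fn_T S h
  CC := fun h => Fn_J h le_rfl
  TC := fun i => Fn_J_T i x
  Cl := fun _ => Fn_J_l hw hx

/-- the digits of an isotropic step -/
theorem hc_w_le {S : Sy d Ω α} (hN : S.Nrm P) {x : ℕ} (hiso : ∀ ω, 0 < P.w ω → iso S.w x ω)
    (i : ℕ) : hc P (S.w (x + 1)) (S.J i x) ≤ d * (S.p + 2) * Real.log 2 := by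
  classical
  have h1 := hc_le_log P (S.w (x + 1)) (S.J i x) ((2 ^ (S.p + 2)) ^ d) (fun ω hω => by
    have key : ∀ ω', 0 < P.w ω' → S.J i x ω' = S.J i x ω →
        S.w (x + 1) ω' = (none, hd (S.w (x + 1) ω')) :: S.w x ω ∧
          ∀ k, hd (S.w (x + 1) ω') k ∈ Finset.Ico (hd (S.w x ω) k * 2 ^ S.p - 2 ^ S.p)
            (hd (S.w x ω) k * 2 ^ S.p - 2 ^ S.p + 2 ^ (S.p + 2)) := by
      intro ω' hω' e
      have hb := base_w (J_base e (Nat.zero_le i) le_rfl)
      have h2 := iso_succ hN.wd (hiso ω' hω')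
      refine ⟨?_, ?_⟩
      · have h3 : hd (S.w (x + 1) ω') =
            dg (fun i l => 2 ^ S.p * fr S.m S.p (S.w x ω') i l) (S.Q ω') := by
          rw [h2]; rfl
        rw [h3, ← hb]
        exact h2
      · intro k
        rw [hd_succ_iso hN.wd (hiso ω' hω'), hb, Finset.mem_Ico]
        have h3 := wd_near hN.wd x (hN.Q1 ω' hω') k
        rw [hb] at h3
        obtain ⟨a1, a2⟩ := abs_le.1 h3
        set u := ap (fr S.m S.p (S.w x ω)) (S.Q ω') k
        have hp : (0 : ℝ) < 2 ^ S.p := by positivity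
        constructor
        · rw [Int.le_floor]
          push_cast
          nlinarith
        · rw [Int.floor_lt]
          push_cast
          rw [pow_add]
          nlinarith
    refine ⟨(Fintype.piFinset fun k : Fin d => Finset.Ico (hd (S.w x ω) k * 2 ^ S.p - 2 ^ S.p)
            (hd (S.w x ω) k * 2 ^ S.p - 2 ^ S.p + 2 ^ (S.p + 2))).image
            (fun f => ((none : Cd d), f) :: S.w x ω), ?_, ?_⟩
    · refine Finset.card_image_le.trans ?_
      rw [Fintype.card_piFinset]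
      have e2 : ∀ k : Fin d, (Finset.Ico (hd (S.w x ω) k * 2 ^ S.p - 2 ^ S.p)
            (hd (S.w x ω) k * 2 ^ S.p - 2 ^ S.p + 2 ^ (S.p + 2))).card = 2 ^ (S.p + 2) := by
        intro k
        rw [Int.card_Ico, add_sub_cancel_left]
        have : ((2 : ℤ) ^ (S.p + 2)) = ((2 ^ (S.p + 2) : ℕ) : ℤ) := by push_cast; rfl
        rw [this, Int.toNat_natCast]
      rw [Finset.prod_congr rfl fun k _ => e2 k, Finset.prod_const, Finset.card_univ,
        Fintype.card_fin]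
    · intro ω' hω' e
      obtain ⟨k1, k2⟩ := key ω' hω' e
      rw [Finset.mem_image]
      exact ⟨hd (S.w (x + 1) ω'), Fintype.mem_piFinset.2 k2, k1.symm⟩)
  refine h1.trans (le_of_eq ?_)
  push_cast
  rw [Real.log_pow, Real.log_pow]
  push_cast
  ring

/-- the digits of the time -/
theorem hc_T_le {S : Sy d Ω α} {i i' : ℕ} (h : i ≤ i') (x : ℕ) :
    hc P (S.T i') (S.J i x) ≤ (S.m * (i' - i) : ℕ) * Real.log 2 := by
  have h1 := hc_fl1_digits_le P (lt_le (S := S) h) S.t (S.J i x)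
  have h2 : S.lt i' - S.lt i = S.m * (i' - i) := by
    unfold Sy.lt
    rw [Nat.mul_sub]
    omega
  rw [h2] at h1
  refine le_trans ?_ h1
  refine hc_mono_right P _ ?_
  intro ω ω' p p' e
  exact Prod.ext (Fn_J_T (P := P) (S := S) i x ω ω' p p' e) e

/-- the blocks of one window -/
theorem count {S : Sy d Ω α} (hw : IsWd S.m S.p S.Q S.w) {j0 x i e k : ℕ} (hx : x ≤ j0)
    (hie : i ≤ e) (hek : e + 1 ≤ k) (hκ : S.lt e + S.κ ≤ S.lt k) :
    ∑ j ∈ Ioc i e, hc P (fun ω l => ⌊S.ps k j x ω l⌋)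
      (fun ω => ((fun l => ⌊S.ps k j x ω l / 2 ^ S.m⌋), S.J j x ω, S.T k ω)) ≤
      mi P (lA S j0) (S.J k x) (S.J i x) := by
  have hD := dat (P := P) hw hx
  have hstep : ∀ (j : ℕ) (ω : Ω) (l : Fin d), S.ps k (j + 1) x ω l / 2 ^ S.m = S.ps k j x ω l := by
    intro j ω l
    rw [ps_eq, ps_eq]
    have : S.lt (j + 1) = S.m + S.lt j := by unfold Sy.lt; ring
    rw [this, pow_add]
    field_simp
  have h1 := hD.count (i := i) (e := e + 1) (k := k) (by omega) hek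
    (fun j ω (l : Fin d) => ⌊S.ps k j x ω l / 2 ^ S.m⌋) (by
      intro j _ _ ω ω' _ _ h
      funext l
      have h2 : ⌊S.ps k (j + 1) x ω l / 2 ^ S.m⌋ = ⌊S.ps k (j + 1) x ω' l / 2 ^ S.m⌋ := congrFun h l
      rw [hstep, hstep] at h2
      show ⌊S.ps k j x ω l / 2 ^ S.m⌋ = ⌊S.ps k j x ω' l / 2 ^ S.m⌋
      have e4 : ∀ y : ℝ, ⌊y / 2 ^ S.m⌋ = ⌊y⌋ / ((2 ^ S.m : ℕ) : ℤ) := by
        intro y
        have := Int.floor_div_natCast y (2 ^ S.m)
        push_cast at this ⊢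
        exact this
      rw [e4, e4, h2]) (by
      intro ω ω' _ _ h
      have h2 : S.J k x ω = S.J k x ω' := congrArg Prod.snd h
      have h3 := base_fl (J_base h2 le_rfl le_rfl)
      funext l
      show ⌊S.ps k (e + 1) x ω l / 2 ^ S.m⌋ = ⌊S.ps k (e + 1) x ω' l / 2 ^ S.m⌋
      rw [hstep, hstep]
      have e5 : ∀ ω, S.ps k e x ω l = S.ps k k x ω l / 2 ^ S.κ / ((2 ^ (S.lt k - S.κ - S.lt e) : ℕ) : ℝ) := by
        intro ω
        rw [ps_eq, ps_eq]
        have e6 : (2 : ℝ) ^ S.lt k = 2 ^ S.lt e * 2 ^ S.κ * 2 ^ (S.lt k - S.κ - S.lt e) := by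
          rw [← pow_add, ← pow_add]
          congr 1
          omega
        rw [eq_div_iff (by positivity), eq_div_iff (by positivity)]
        push_cast
        rw [e6]
        ring
      rw [e5, e5, Int.floor_div_natCast, Int.floor_div_natCast, h3 l])
  have h4 : mi P (lA S j0) (S.J k x) (S.J i x) = mi P (lA S j0) ((fun j => S.J j x) k)
      ((fun j => S.J j x) i) := rfl
  rw [h4]
  refine le_trans ?_ h1
  refine le_trans (le_of_eq ?_) (Finset.sum_le_sum_of_subset_of_nonneg (s := Ioc i e)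
    (t := Ico i (e + 1)) ?_ fun j _ _ => hc_nonneg P _ _)
  · refine Finset.sum_congr rfl fun j _ => ?_
    have e7 : (fun (ω : Ω) (l : Fin d) => ⌊S.ps k (j + 1) x ω l / 2 ^ S.m⌋) =
        fun ω l => ⌊S.ps k j x ω l⌋ := by
      funext ω l
      rw [hstep]
    rw [e7]
  · intro j hj
    rw [Finset.mem_Ioc] at hj
    rw [Finset.mem_Ico]
    omega

/-- the slabs given a cell -/
theorem pl_J {S : Sy d Ω α} {γ : Type} {C : Ω → γ} {J : Ω → Jt d α} {x : ℕ} {e e' : ℝ}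
    (h : PlB P S.m (S.F x) S.Q C e) (hΦ : ∃ Φ : γ → Jt d α, prE P (fun ω => J ω ≠ Φ (C ω)) ≤ e') :
    PlB P S.m (S.F x) S.Q J (e + e') := by
  classical
  obtain ⟨Φ, hΦ⟩ := hΦ
  intro π hπ
  have h1 := h (fun z => π (Φ z)) (fun z => hπ _)
  have h2 : prE P (fun ω => sl S.m (S.F x ω) (S.Q ω) (π (J ω))) ≤
      prE P (fun ω => sl S.m (S.F x ω) (S.Q ω) (π (Φ (C ω)))) + prE P (fun ω => J ω ≠ Φ (C ω)) := by
    unfold prE
    rw [Finset.sum_filter, Finset.sum_filter, Finset.sum_filter, ← Finset.sum_add_distrib]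
    refine Finset.sum_le_sum fun ω _ => ?_
    have := P.nn ω
    by_cases hJ : J ω = Φ (C ω)
    · by_cases hs : sl S.m (S.F x ω) (S.Q ω) (π (Φ (C ω)))
      · have hs' : sl S.m (S.F x ω) (S.Q ω) (π (J ω)) := by rw [hJ]; exact hs
        rw [if_pos hs', if_pos hs]
        split_ifs <;> linarith
      · have hs' : ¬ sl S.m (S.F x ω) (S.Q ω) (π (J ω)) := by rw [hJ]; exact hs
        rw [if_neg hs', if_neg hs]
        split_ifs <;> linarith
    · rw [if_pos (show J ω ≠ Φ (C ω) from hJ)]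
      split_ifs <;> linarith
  linarith

/-- the end -/
theorem fin_mi {S S1 : Sy d Ω α} (hS1 : ∃ o, S1 = S.trn o) (hN : S.Nrm P) {n' x j0 h : ℕ} {c : ℝ}
    (hx : x ≤ j0)
    (hc1 : hc P (S1.J n' x) (fun ω => ((S.Zh h ω, S.A ω), S.w x ω)) ≤ c) :
    mi P (lA S1 j0) (S1.J n' x) (S1.J 0 x) ≤
      mi P S.ray (S.Zh h) (fun ω => (S.A ω, S.T 0 ω)) +
        hc P (S.w j0) (fun ω => (S.ray ω, (S.A ω, S.T 0 ω))) + c := by
  obtain ⟨o, rfl⟩ := hS1
  set S1 := S.trn o with hS1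
  set l := lA S1 j0 with hl
  have hwd : IsWd S1.m S1.p S1.Q S1.w := hN.wd
  -- add the end
  have a1 : mi P l (S1.J n' x) (S1.J 0 x) ≤
      mi P l (S.Zh h) (S1.J 0 x) + mi P l (S1.J n' x) (fun ω => (S.Zh h ω, S1.J 0 x ω)) := by
    rw [← mi_pair P l (S.Zh h) (S1.J n' x) (S1.J 0 x)]
    refine mi_mono_right P l ?_
    intro ω ω' _ _ e
    exact congrArg (fun z => z.1.2) e
  have a2 : mi P l (S1.J n' x) (fun ω => (S.Zh h ω, S1.J 0 x ω)) ≤ c := by
    refine (mi_le_hc' P _ _ _).trans (le_trans ?_ hc1)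
    refine hc_mono_right P _ ?_
    intro ω ω' _ _ e
    have e1 : S.Zh h ω = S.Zh h ω' := congrArg Prod.fst e
    have e2 : S1.J 0 x ω = S1.J 0 x ω' := congrArg Prod.snd e
    have e3 := J_base e2 le_rfl le_rfl
    have e4 : S.A ω = S.A ω' := base_A (S := S1) e3
    have e5 : S.w x ω = S.w x ω' := base_w (S := S1) e3
    exact Prod.ext (Prod.ext e1 e4) e5
  -- the first cell
  have a3 : mi P l (S.Zh h) (S1.J 0 x) ≤ mi P l (S.Zh h) (fun ω => (S.A ω, S.T 0 ω)) := by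
    have b1 : mi P l (S.Zh h) (S1.J 0 x) =
        mi P l (S.Zh h) (fun ω => (S1.J 0 x ω, (S.A ω, S.T 0 ω))) := by
      refine mi_congr_cond P _ _ ?_ ?_
      · intro ω ω' _ _ e
        exact congrArg Prod.fst e
      · intro ω ω' _ _ e
        have e3 := J_base e le_rfl le_rfl
        have e4 : S.A ω = S.A ω' := base_A (S := S1) e3
        have e5 : S.T 0 ω = S.T 0 ω' := base_T (S := S1) e3
        exact Prod.ext e (Prod.ext e4 e5)
    rw [b1]
    refine mi_cond_le P _ _ ?_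
    intro ω ω' p p' e
    refine Fn_J_l (P := P) (S := S1) hwd hx ω ω' p p' ?_
    have e4 : l ω = l ω' := congrArg Prod.fst e
    have e5 : S.T 0 ω = S.T 0 ω' := congrArg (fun z => z.2.2) e
    exact Prod.ext e4 e5
  -- the line
  have a4 : mi P l (S.Zh h) (fun ω => (S.A ω, S.T 0 ω)) ≤
      mi P S.ray (S.Zh h) (fun ω => (S.A ω, S.T 0 ω)) +
        hc P (S.w j0) (fun ω => (S.ray ω, (S.A ω, S.T 0 ω))) := by
    have b1 : mi P l (S.Zh h) (fun ω => (S.A ω, S.T 0 ω)) ≤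
        mi P (fun ω => (S.ray ω, S.w j0 ω)) (S.Zh h) (fun ω => (S.A ω, S.T 0 ω)) := by
      refine mi_mono_left P _ ?_
      intro ω ω' _ _ e
      have e1 : S.ray ω = S.ray ω' := congrArg (fun z => z.1.1) e
      have e2 : S.w j0 ω = S.w j0 ω' := congrArg (fun z => z.1.2) e
      have e3 : S.A ω = S.A ω' := congrArg (fun z => z.2.1) e
      have e4 : S.X ω = S.X ω' := congrArg Prod.fst e1
      have e5 : S.Q ω = S.Q ω' := congrArg Prod.snd e1
      show (S1.ray ω, (S1.A ω, S1.w j0 ω)) = (S1.ray ω', (S1.A ω', S1.w j0 ω'))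
      have e6 : S1.ray ω = S1.ray ω' := by
        show ((fun l => S.X ω l + o l), S.Q ω) = ((fun l => S.X ω' l + o l), S.Q ω')
        rw [e4, e5]
      have e7 : S1.A ω = S1.A ω' := e3
      have e8 : S1.w j0 ω = S1.w j0 ω' := e2
      rw [e6, e7, e8]
    refine b1.trans ?_
    rw [mi_symm P _ (S.Zh h), mi_pair, mi_symm P (S.Zh h) S.ray]
    have b2 := mi_le_hc' P (S.Zh h) (S.w j0) (fun ω => (S.ray ω, (S.A ω, S.T 0 ω)))
    linarith
  linarith

end Vale.Agent.P106.U.EndA
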