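import Vale.Agent.P106.U.H611.Props
import Vale.Agent.P106.TV.MStepGL

/-!
# P106 / U / H611 : geometry of the cells of the system `Sy` (END7, Case A)

* `stJ`, `hd` : the state stored in a cell, the last digits of a state.
* `ps_eq`, `J_base`, `fr_succ_iso`, `hd_succ_iso`, `wd_near`.
* `geo` : the hypotheses `GeoG` of the M-step.
-/

set_option autoImplicit false

namespace Vale.Agent.P106.U.EndA

open Finset Vale.Agent.P127 Vale.Agent.P127.Stk Vale.Agent.P127.U.CellD Vale.Agent.P127.U.Mic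

variable {d : ℕ} {Ω α : Type}

/-- values of the cells -/
abbrev Jt (d : ℕ) (α : Type) := ℕ → ℕ → Option (α × ℤ × Sta d × (Fin d → ℤ))

/-- the state stored in the component `(i, j)` of a cell -/
def stJ (z : Jt d α) (i j : ℕ) : Sta d := ((z i j).map fun x => x.2.2.1).getD []

/-- the digits of the last step of a state -/
def hd (s : Sta d) : Fin d → ℤ := (s.head?.map Prod.snd).getD 0

theorem stJ_J (S : Sy d Ω α) {i j i' j' : ℕ} (hi : i' ≤ i) (hj : j' ≤ j) (ω : Ω) :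
    stJ (S.J i j ω) i' j' = S.w j' ω := by
  simp [stJ, Sy.J, Sy.base, hi, hj]

theorem J_base {S : Sy d Ω α} {i j i' j' : ℕ} {a b : Ω} (h : S.J i j a = S.J i j b) (hi : i' ≤ i)
    (hj : j' ≤ j) : S.base i' j' a = S.base i' j' b := by
  have := congrFun (congrFun h i') j'
  simp only [Sy.J, hi, hj, and_self, if_true, Option.some.injEq] at this
  exact this

theorem base_A {S : Sy d Ω α} {i j : ℕ} {a b : Ω} (h : S.base i j a = S.base i j b) :
    S.A a = S.A b := congrArg Prod.fst h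

theorem base_T {S : Sy d Ω α} {i j : ℕ} {a b : Ω} (h : S.base i j a = S.base i j b) :
    S.T i a = S.T i b := congrArg (fun x => x.2.1) h

theorem base_w {S : Sy d Ω α} {i j : ℕ} {a b : Ω} (h : S.base i j a = S.base i j b) :
    S.w j a = S.w j b := congrArg (fun x => x.2.2.1) h

theorem base_fl {S : Sy d Ω α} {i j : ℕ} {a b : Ω} (h : S.base i j a = S.base i j b) (k : Fin d) :
    ⌊S.ps i i j a k / 2 ^ S.κ⌋ = ⌊S.ps i i j b k / 2 ^ S.κ⌋ :=
  congrFun (congrArg (fun x => x.2.2.2) h) k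

theorem floor_near {x y c : ℝ} (hc : 0 < c) (h : ⌊x / c⌋ = ⌊y / c⌋) : |x - y| ≤ c := by
  have h1 := Int.floor_le (x / c)
  have h2 := Int.lt_floor_add_one (x / c)
  have h3 := Int.floor_le (y / c)
  have h4 := Int.lt_floor_add_one (y / c)
  rw [h] at h1 h2
  have h5 : |x / c - y / c| ≤ 1 := by rw [abs_le]; constructor <;> linarith
  rw [← sub_div, abs_div, abs_of_pos hc, div_le_one hc] at h5
  exact h5

theorem ap_add_mul (A : Fr d) (x y : Fin d → ℝ) (c : ℝ) (k : Fin d) :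
    ap A (fun l => x l + c * y l) k = ap A x k + c * ap A y k := by
  unfold ap
  rw [Finset.mul_sum, ← Finset.sum_add_distrib]
  exact Finset.sum_congr rfl fun l _ => by ring

theorem ap_mul_left (A : Fr d) (c : ℝ) (x : Fin d → ℝ) (k : Fin d) :
    ap (fun i l => c * A i l) x k = c * ap A x k := by
  unfold ap
  rw [Finset.mul_sum]
  exact Finset.sum_congr rfl fun l _ => by ring

theorem ap_fr1 (x : Fin d → ℝ) (k : Fin d) : ap fr1 x k = x k := by
  unfold ap fr1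
  rw [Finset.sum_eq_single k]
  · simp
  · intro b _ hb
    simp [Ne.symm hb]
  · intro h
    exact absurd (Finset.mem_univ _) h

theorem ps_eq (S : Sy d Ω α) (i' i j : ℕ) (ω : Ω) (k : Fin d) :
    S.ps i' i j ω k = 2 ^ S.lt i * (ap (S.F j ω) (S.X ω) k +
      rd (S.lt i') (S.t ω) * ap (S.F j ω) (S.Q ω) k) := by
  unfold Sy.ps Sy.pos
  rw [ap_add_mul]

theorem iso_succ {m p : ℕ} {Q : Ω → Fin d → ℝ} {w : ℕ → Ω → Sta d} (h : IsWd m p Q w) {j : ℕ}
    {ω : Ω} (hi : iso w j ω) :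
    w (j + 1) ω = (none, dg (fun i l => 2 ^ p * fr m p (w j ω) i l) (Q ω)) :: w j ω := by
  obtain ⟨c, _, hc⟩ := h.succ j ω
  unfold iso at hi
  rw [hc] at hi
  simp only [List.head?_cons, Option.map_some, Option.some.injEq] at hi
  rw [hc, hi]
  rfl

theorem fr_succ_iso {m p : ℕ} {Q : Ω → Fin d → ℝ} {w : ℕ → Ω → Sta d} (h : IsWd m p Q w) {j : ℕ}
    {ω : Ω} (hi : iso w j ω) : fr m p (w (j + 1) ω) = fun i l => 2 ^ p * fr m p (w j ω) i l := by
  rw [iso_succ h hi]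
  rfl

theorem hd_succ_iso {m p : ℕ} {Q : Ω → Fin d → ℝ} {w : ℕ → Ω → Sta d} (h : IsWd m p Q w) {j : ℕ}
    {ω : Ω} (hi : iso w j ω) (k : Fin d) :
    hd (w (j + 1) ω) k = ⌊2 ^ p * ap (fr m p (w j ω)) (Q ω) k⌋ := by
  rw [iso_succ h hi]
  show dg (fun i l => 2 ^ p * fr m p (w j ω) i l) (Q ω) k = _
  unfold dg
  rw [ap_mul_left]

/-- the velocity in the frame of a state is close to the last digits of the state -/
theorem wd_near {m p : ℕ} {Q : Ω → Fin d → ℝ} {w : ℕ → Ω → Sta d} (h : IsWd m p Q w) (j : ℕ)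
    {ω : Ω} (hQ : ∀ l, |Q ω l| ≤ 1) (k : Fin d) :
    |ap (fr m p (w j ω)) (Q ω) k - hd (w j ω) k| ≤ 1 := by
  rcases j with _ | j
  · rw [h.zero]
    show |ap fr1 (Q ω) k - (hd [] k : ℤ)| ≤ 1
    rw [ap_fr1]
    simpa [hd] using hQ k
  · obtain ⟨c, _, hc⟩ := h.succ j ω
    have e1 : hd (w (j + 1) ω) = dg (fr m p (w (j + 1) ω)) (Q ω) := by
      rw [hc]
      rfl
    rw [e1]
    unfold dg
    have h1 := Int.floor_le (ap (fr m p (w (j + 1) ω)) (Q ω) k)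
    have h2 := Int.lt_floor_add_one (ap (fr m p (w (j + 1) ω)) (Q ω) k)
    rw [abs_le]
    constructor <;> linarith

/-- the digits of the velocity in the frame `j`, precision `2^-p` -/
noncomputable def xS (S : Sy d Ω α) (i j : ℕ) (w : Jt d α) : Fin d → ℝ :=
  fun k => (hd (stJ w i (j + 1)) k : ℝ) / 2 ^ S.p

theorem xS_near {S : Sy d Ω α} (hw : IsWd S.m S.p S.Q S.w) (i j : ℕ) {ω : Ω} (hi : iso S.w j ω)
    (k : Fin d) :
    0 ≤ ap (S.F j ω) (S.Q ω) k - xS S i j (S.J i (j + 1) ω) k ∧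
      ap (S.F j ω) (S.Q ω) k - xS S i j (S.J i (j + 1) ω) k ≤ q2 S.p := by
  unfold xS
  rw [stJ_J S le_rfl le_rfl, hd_succ_iso hw hi]
  unfold Sy.F
  set u := ap (fr S.m S.p (S.w j ω)) (S.Q ω) k
  have h1 := Int.floor_le (2 ^ S.p * u)
  have h2 := Int.lt_floor_add_one (2 ^ S.p * u)
  have hp : (0 : ℝ) < 2 ^ S.p := by positivity
  have h3 : q2 S.p = 1 / 2 ^ S.p := by rw [div_pow_eq, one_mul]
  constructor
  · rw [sub_nonneg, div_le_iff₀ hp]
    linarith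
  · rw [h3, sub_le_iff_le_add, ← add_div, le_div_iff₀ hp]
    linarith

/-- displacement: times `θ`, `θ₂`, velocity `x`, unit `2^-(lt i)`, divided by `4` -/
noncomputable def FS (S : Sy d Ω α) (i i' : ℕ) (_z : Jt d α) (θ θ₂ : ℤ) (x : Fin d → ℝ) :
    Fin d → ℝ := fun k => 2 ^ S.lt i * (((θ₂ : ℝ) - θ) / 2 ^ S.lt i') * x k / 4

theorem geo [Fintype Ω] {P : Law Ω} {S : Sy d Ω α} {i i' j : ℕ} {ρ : ℝ} (hN : S.Nrm P)
    (hi : ∀ ω, 0 < P.w ω → iso S.w j ω) (hii : i ≤ i')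
    (h1 : 2 ^ S.κ * (2 ^ S.lt i / 2 ^ S.lt i') ≤ ρ) (h2 : 2 ^ S.κ / 2 ^ S.p ≤ ρ) :
    TV.GeoG P (S.J i j) (S.T i') (S.J i (j + 1)) (S.J i' j) (fun _ w => xS S i j w)
      (fun ω k => S.ps i' i j ω k / 4) (fun _ ω k => S.ps i' i j ω k / 4) (FS S i i')
      (fun _ => ρ) := by
  have key1 : ∀ a b, S.J i' j a = S.J i' j b → ∀ k,
      |S.ps i' i j a k / 4 - S.ps i' i j b k / 4| ≤ ρ := by
    intro a b hE k
    have hb := J_base hE le_rfl le_rfl
    have hf := floor_near (by positivity) (base_fl hb k)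
    rw [ps_eq, ps_eq] at hf
    rw [ps_eq, ps_eq]
    set ya := ap (S.F j a) (S.X a) k + rd (S.lt i') (S.t a) * ap (S.F j a) (S.Q a) k
    set yb := ap (S.F j b) (S.X b) k + rd (S.lt i') (S.t b) * ap (S.F j b) (S.Q b) k
    have e0 : (0 : ℝ) < 2 ^ S.lt i' := by positivity
    have e1 : 2 ^ S.lt i * ya / 4 - 2 ^ S.lt i * yb / 4 =
        (2 ^ S.lt i' * ya - 2 ^ S.lt i' * yb) * (2 ^ S.lt i / 2 ^ S.lt i') / 4 := by
      field_simp
    rw [e1, abs_div, abs_mul, abs_of_nonneg (by positivity : (0 : ℝ) ≤ 2 ^ S.lt i / 2 ^ S.lt i')]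
    have e2 : |2 ^ S.lt i' * ya - 2 ^ S.lt i' * yb| * (2 ^ S.lt i / 2 ^ S.lt i') ≤
        2 ^ S.κ * (2 ^ S.lt i / 2 ^ S.lt i') := by gcongr
    have e3 : |(4 : ℝ)| = 4 := by norm_num
    rw [e3, div_le_iff₀ (by norm_num)]
    have e4 : 0 ≤ |2 ^ S.lt i' * ya - 2 ^ S.lt i' * yb| * (2 ^ S.lt i / 2 ^ S.lt i') := by
      positivity
    linarith
  refine ⟨fun a b _ _ _ _ hE k => key1 a b hE k, fun o a b _ _ _ _ _ _ hE k => key1 a b hE k, ?_⟩
  intro a b ha hb hD hW k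
  have hbD := J_base hD le_rfl le_rfl
  have hbW := J_base hW le_rfl le_rfl
  have hT : rd (S.lt i) (S.t a) = rd (S.lt i) (S.t b) := by
    unfold rd
    have := base_T hbD
    unfold Sy.T at this
    rw [this]
  have hF : S.F j a = S.F j b := by
    unfold Sy.F
    rw [base_w hbD]
  -- the position at the time of step `i` in the frame `j`
  have hfr : ∀ ω, 0 < P.w ω → S.F (j + 1) ω = fun i l => 2 ^ S.p * S.F j ω i l := by
    intro ω hω
    exact fr_succ_iso hN.wd (hi ω hω)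
  have hf := floor_near (by positivity) (base_fl hbW k)
  rw [ps_eq, ps_eq, hfr a ha, hfr b hb, ap_mul_left, ap_mul_left, ap_mul_left, ap_mul_left,
    hT, hF] at hf
  show |S.ps i' i j b k / 4 - S.ps i' i j a k / 4 - 2 ^ S.lt i *
    (((S.T i' b : ℝ) - S.T i' a) / 2 ^ S.lt i') * xS S i j (S.J i (j + 1) a) k / 4| ≤ ρ
  rw [ps_eq, ps_eq, hF]
  have hTa : (S.T i' a : ℝ) / 2 ^ S.lt i' = rd (S.lt i') (S.t a) := rfl
  have hTb : (S.T i' b : ℝ) / 2 ^ S.lt i' = rd (S.lt i') (S.t b) := rfl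
  rw [sub_div, hTa, hTb]
  have hxa := xS_near hN.wd i j (hi a ha) k
  have hxb := xS_near hN.wd i j (hi b hb) k
  rw [hF] at hxa
  rw [← hW] at hxb
  set x := xS S i j (S.J i (j + 1) a) k
  set A := S.F j b
  set ua := ap A (S.Q a) k
  set ub := ap A (S.Q b) k
  set Xa := ap A (S.X a) k
  set Xb := ap A (S.X b) k
  have ra := rd_sub (show S.lt i ≤ S.lt i' by unfold Sy.lt; gcongr) (S.t a)
  have rb := rd_sub (show S.lt i ≤ S.lt i' by unfold Sy.lt; gcongr) (S.t b)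
  rw [hT] at ra
  set τ := rd (S.lt i) (S.t b)
  set ta := rd (S.lt i') (S.t a)
  set tb := rd (S.lt i') (S.t b)
  have hq : (2 : ℝ) ^ S.lt i * q2 (S.lt i) = 1 := q2_mul_pow _
  have e1 : 2 ^ S.lt i * (Xb + tb * ub) / 4 - 2 ^ S.lt i * (Xa + ta * ua) / 4 -
      2 ^ S.lt i * (tb - ta) * x / 4 =
      ((2 ^ S.lt i * (Xb + τ * ub) - 2 ^ S.lt i * (Xa + τ * ua)) +
        2 ^ S.lt i * (tb - τ) * (ub - x) - 2 ^ S.lt i * (ta - τ) * (ua - x)) / 4 := by ring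
  rw [e1, abs_div, show |(4 : ℝ)| = 4 by norm_num, div_le_iff₀ (by norm_num)]
  have f1 : |2 ^ S.lt i * (Xb + τ * ub) - 2 ^ S.lt i * (Xa + τ * ua)| ≤ ρ := by
    refine le_trans ?_ h2
    rw [le_div_iff₀ (by positivity)]
    rw [abs_sub_comm] at hf
    calc |2 ^ S.lt i * (Xb + τ * ub) - 2 ^ S.lt i * (Xa + τ * ua)| * 2 ^ S.p
        = |2 ^ S.lt i * (2 ^ S.p * Xb + τ * (2 ^ S.p * ub)) -
            2 ^ S.lt i * (2 ^ S.p * Xa + τ * (2 ^ S.p * ua))| := by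
          rw [← abs_of_pos (by positivity : (0 : ℝ) < 2 ^ S.p), ← abs_mul,
            abs_of_pos (by positivity : (0 : ℝ) < 2 ^ S.p)]
          congr 1
          ring
      _ ≤ 2 ^ S.κ := hf
  have hqp : q2 S.p ≤ ρ := by
    refine le_trans ?_ h2
    rw [div_pow_eq]
    have : (1 : ℝ) ≤ 2 ^ S.κ := one_le_pow₀ (by norm_num)
    nlinarith [q2_pos S.p]
  have g : ∀ (s u : ℝ), |s - τ| ≤ q2 (S.lt i) → 0 ≤ u - x → u - x ≤ q2 S.p →
      |2 ^ S.lt i * (s - τ) * (u - x)| ≤ ρ := by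
    intro s u hs h0 h3
    rw [abs_mul, abs_mul, abs_of_pos (by positivity : (0 : ℝ) < 2 ^ S.lt i), abs_of_nonneg h0]
    have g1 : 2 ^ S.lt i * |s - τ| ≤ 1 := by
      rw [← hq]
      gcongr
    calc 2 ^ S.lt i * |s - τ| * (u - x) ≤ 1 * (u - x) := by gcongr
      _ ≤ ρ := by linarith
  have g1 := g tb ub rb hxb.1 hxb.2
  have g2 := g ta ua ra hxa.1 hxa.2
  have t1 := abs_sub (2 ^ S.lt i * (Xb + τ * ub) - 2 ^ S.lt i * (Xa + τ * ua) +
        2 ^ S.lt i * (tb - τ) * (ub - x)) (2 ^ S.lt i * (ta - τ) * (ua - x))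
  have t2 := abs_add_le (2 ^ S.lt i * (Xb + τ * ub) - 2 ^ S.lt i * (Xa + τ * ua))
    (2 ^ S.lt i * (tb - τ) * (ub - x))
  have hρ : 0 ≤ ρ := (q2_pos S.p).le.trans hqp
  linarith

end Vale.Agent.P106.U.EndA
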