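import Vale.Agent.P106.U.H611.Geo
import Vale.Agent.P106.U.H11.DetPert
import Vale.Agent.P106.U.H420.Non

/-!
# P106 / U / H611 : non-degeneracy of the displacements (END7, Case A)

`avG_ge` : the average of the weight `chiG` over the copies is at least `1 - 7 colp - c0 e`.
-/

set_option autoImplicit false

namespace Vale.Agent.P106.U.EndA

open Finset Vale.Agent.P127 Vale.Agent.P127.Stk Vale.Agent.P127.U.CellD Vale.Agent.P127.U.Mic

variable {d : ℕ} {Ω α : Type}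

/-- the pairs of copies -/
def fS (d : ℕ) (k : Fin d) : Unit × Fin (d + 1) × Fin (d + 1) := ((), k.succ, 0)

theorem fS_inj (d : ℕ) : Function.Injective (fS d) := by
  intro a b h
  have := congrArg (fun x => x.2.1) h
  exact Fin.succ_injective _ this

theorem fS_ne (d : ℕ) (k : Fin d) : (fS d k).2.1 ≠ (fS d k).2.2 := Fin.succ_ne_zero k

/-- the times of two rays with the same cell are close -/
theorem time_near (S : Sy d Ω α) {i i' : ℕ} (hii : i ≤ i') {a b : Ω} (h : S.T i a = S.T i b) :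
    |2 ^ S.lt i * (((S.T i' b : ℝ) - S.T i' a) / 2 ^ S.lt i')| ≤ 1 := by
  have hTa : (S.T i' a : ℝ) / 2 ^ S.lt i' = rd (S.lt i') (S.t a) := rfl
  have hTb : (S.T i' b : ℝ) / 2 ^ S.lt i' = rd (S.lt i') (S.t b) := rfl
  rw [sub_div, hTa, hTb]
  have hle : S.lt i ≤ S.lt i' := by unfold Sy.lt; gcongr
  have ha1 := rd_mono hle (S.t a)
  have hb1 := rd_mono hle (S.t b)
  have ha2 := (rd_le (S.lt i') (S.t a)).trans (lt_rd (S.lt i) (S.t a)).le
  have hb2 := (rd_le (S.lt i') (S.t b)).trans (lt_rd (S.lt i) (S.t b)).le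
  have hT : rd (S.lt i) (S.t a) = rd (S.lt i) (S.t b) := by
    unfold rd
    have := h
    unfold Sy.T at this
    rw [this]
  rw [hT] at ha1 ha2
  rw [abs_mul, abs_of_pos (by positivity : (0 : ℝ) < 2 ^ S.lt i)]
  have h1 : |rd (S.lt i') (S.t b) - rd (S.lt i') (S.t a)| ≤ q2 (S.lt i) := by
    rw [abs_le]
    constructor <;> linarith
  calc 2 ^ S.lt i * |rd (S.lt i') (S.t b) - rd (S.lt i') (S.t a)|
      ≤ 2 ^ S.lt i * q2 (S.lt i) := by gcongr
    _ = 1 := q2_mul_pow _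

/-- if the rounded times are close the digits are close -/
theorem time_far (S : Sy d Ω α) {i i' : ℕ} (hii : S.lt i + S.m ≤ S.lt i') {a b : Ω}
    (h : |2 ^ S.lt i * (((S.T i' b : ℝ) - S.T i' a) / 2 ^ S.lt i')| < q2 S.m) :
    |fl1 (S.lt i + S.m) (S.t a) - fl1 (S.lt i + S.m) (S.t b)| ≤ (3 : ℕ) := by
  have hTa : (S.T i' a : ℝ) / 2 ^ S.lt i' = rd (S.lt i') (S.t a) := rfl
  have hTb : (S.T i' b : ℝ) / 2 ^ S.lt i' = rd (S.lt i') (S.t b) := rfl
  rw [sub_div, hTa, hTb] at h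
  rw [abs_mul, abs_of_pos (by positivity : (0 : ℝ) < 2 ^ S.lt i)] at h
  have h1 : 2 ^ (S.lt i + S.m) * |rd (S.lt i') (S.t b) - rd (S.lt i') (S.t a)| ≤ 1 := by
    have e1 : (2 : ℝ) ^ (S.lt i + S.m) * |rd (S.lt i') (S.t b) - rd (S.lt i') (S.t a)| =
        2 ^ S.m * (2 ^ S.lt i * |rd (S.lt i') (S.t b) - rd (S.lt i') (S.t a)|) := by
      rw [pow_add]; ring
    rw [e1, ← q2_mul_pow S.m]
    gcongr
  have hq : 2 ^ (S.lt i + S.m) * q2 (S.lt i') ≤ 1 := by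
    rw [← q2_mul_pow (S.lt i + S.m)]
    have := q2_le hii
    gcongr
  have ha1 := rd_le (S.lt i') (S.t a)
  have hb1 := rd_le (S.lt i') (S.t b)
  have ha2 := (lt_rd (S.lt i') (S.t a)).le
  have hb2 := (lt_rd (S.lt i') (S.t b)).le
  have h2 : |2 ^ (S.lt i + S.m) * S.t a - 2 ^ (S.lt i + S.m) * S.t b| ≤ (2 : ℕ) := by
    have e2 : |S.t a - S.t b| ≤ |rd (S.lt i') (S.t b) - rd (S.lt i') (S.t a)| + q2 (S.lt i') := by
      have := abs_sub_comm (rd (S.lt i') (S.t b)) (rd (S.lt i') (S.t a))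
      rw [this, abs_le]
      have h3 := neg_abs_le (rd (S.lt i') (S.t a) - rd (S.lt i') (S.t b))
      have h4 := le_abs_self (rd (S.lt i') (S.t a) - rd (S.lt i') (S.t b))
      constructor <;> linarith
    rw [← mul_sub, abs_mul, abs_of_pos (by positivity : (0 : ℝ) < 2 ^ (S.lt i + S.m))]
    calc 2 ^ (S.lt i + S.m) * |S.t a - S.t b| ≤
        2 ^ (S.lt i + S.m) * (|rd (S.lt i') (S.t b) - rd (S.lt i') (S.t a)| + q2 (S.lt i')) := by
          gcongr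
      _ ≤ 1 + 1 := by rw [mul_add]; linarith
      _ = ((2 : ℕ) : ℝ) := by norm_num
  unfold fl1
  have h5 := floor_close_aux h2
  exact h5

/-- the frame and the digits stored in a cell -/
noncomputable def AJ (S : Sy d Ω α) (i j : ℕ) (z : Jt d α) : Fr d := fr S.m S.p (stJ z i j)

theorem AJ_J (S : Sy d Ω α) (i j : ℕ) (ω : Ω) : AJ S i j (S.J i j ω) = S.F j ω := by
  unfold AJ Sy.F
  rw [stJ_J S le_rfl le_rfl]

theorem chi_ge [Fintype Ω] {P : Law Ω} {S : Sy d Ω α} {i i' j c0 : ℕ} {C : ℝ}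
    (hC : ∀ M M' : Matrix (Fin d) (Fin d) ℝ, ∀ e, 0 ≤ e → e ≤ 1 → (∀ i j, |M i j| ≤ 2) →
      (∀ i j, |M i j - M' i j| ≤ e) → |M.det - M'.det| ≤ C * e)
    (hN : S.Nrm P) (hi : ∀ ω, 0 < P.w ω → iso S.w j ω) (hii : S.lt i + S.m ≤ S.lt i') (hii' : i ≤ i')
    (hCp : C * q2 S.p ≤ (1 / 2) ^ (c0 * S.m) / 2) {ω ω₂ : Ω} (hω₂ : S.T i ω₂ = S.T i ω)
    {y : Fin (d + 1) → Ω} (hy : ∀ k, 0 < P.w (y k) ∧ S.J i j (y k) = S.J i j ω) :
    1 - Law.ind (|fl1 (S.lt i + S.m) (S.t ω) - fl1 (S.lt i + S.m) (S.t ω₂)| ≤ (3 : ℕ)) -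
      Law.ind (|(Matrix.of fun k i' : Fin d => ap (AJ S i j (S.J i j ω)) (S.Q (y k.succ)) i' -
        ap (AJ S i j (S.J i j ω)) (S.Q (y 0)) i').det| < (1 / 2) ^ (c0 * S.m)) ≤
    TV.chiG (FS S i i') (fS d) (((1 / 2) ^ S.m / 4) ^ d * ((1 / 2) ^ (c0 * S.m) / 2))
      (S.J i j ω) (S.T i' ω) (fun _ => S.T i' ω₂) (fun k => xS S i j (S.J i (j + 1) (y k))) := by
  classical
  set M : Matrix (Fin d) (Fin d) ℝ := Matrix.of fun k i' : Fin d =>
    ap (AJ S i j (S.J i j ω)) (S.Q (y k.succ)) i' - ap (AJ S i j (S.J i j ω)) (S.Q (y 0)) i' with hM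
  by_cases h1 : |fl1 (S.lt i + S.m) (S.t ω) - fl1 (S.lt i + S.m) (S.t ω₂)| ≤ (3 : ℕ)
  · rw [Law.ind_of h1]
    refine le_trans ?_ (TV.chiG_nonneg _ _ _ _ _ _ _)
    have h2 := ind_nonneg (|M.det| < (1 / 2) ^ (c0 * S.m))
    linarith
  by_cases h2 : |M.det| < (1 / 2) ^ (c0 * S.m)
  · rw [Law.ind_of h2]
    refine le_trans ?_ (TV.chiG_nonneg _ _ _ _ _ _ _)
    rw [Law.ind_not h1]
    norm_num
  rw [Law.ind_not h1, Law.ind_not h2, sub_zero, sub_zero]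
  have hs1 := time_near S hii' hω₂.symm
  have hs2 : q2 S.m ≤ |2 ^ S.lt i * (((S.T i' ω₂ : ℝ) - S.T i' ω) / 2 ^ S.lt i')| := by
    by_contra h
    exact h1 (time_far S hii (not_le.1 h))
  set s : ℝ := 2 ^ S.lt i * (((S.T i' ω₂ : ℝ) - S.T i' ω) / 2 ^ S.lt i') with hs
  set x : Fin (d + 1) → Fin d → ℝ := fun k => xS S i j (S.J i (j + 1) (y k)) with hx
  -- the coordinates of the velocities
  have hA : AJ S i j (S.J i j ω) = S.F j ω := AJ_J S i j ω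
  have hF : ∀ k, S.F j (y k) = S.F j ω := by
    intro k
    rw [← AJ_J S i j (y k), (hy k).2, AJ_J]
  have hw : ∀ k, S.w j (y k) = S.w j ω := by
    intro k
    have := base_w (J_base (hy k).2 le_rfl le_rfl)
    exact this
  have hu : ∀ k l, 0 ≤ ap (S.F j ω) (S.Q (y k)) l - x k l ∧
      ap (S.F j ω) (S.Q (y k)) l - x k l ≤ q2 S.p := by
    intro k l
    have := xS_near hN.wd i j (hi _ (hy k).1) l
    rw [hF] at this
    exact this
  have hn : ∀ k l, |ap (S.F j ω) (S.Q (y k)) l - hd (S.w j ω) l| ≤ 1 := by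
    intro k l
    have := wd_near hN.wd j (hN.Q1 _ (hy k).1) l
    rw [hw] at this
    have hF' : fr S.m S.p (S.w j ω) = S.F j ω := rfl
    rw [hF'] at this
    exact this
  have hMe : ∀ k l, M k l = ap (S.F j ω) (S.Q (y k.succ)) l - ap (S.F j ω) (S.Q (y 0)) l := by
    intro k l
    rw [hM, hA]
    rfl
  have hM2 : ∀ k l, |M k l| ≤ 2 := by
    intro k l
    rw [hMe, abs_le]
    have a1 := abs_le.1 (hn k.succ l)
    have a2 := abs_le.1 (hn 0 l)
    constructor <;> linarith [a1.1, a1.2, a2.1, a2.2]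
  set M' : Matrix (Fin d) (Fin d) ℝ := Matrix.of fun k l => x k.succ l - x 0 l with hM'
  have hMM : ∀ k l, |M k l - M' k l| ≤ q2 S.p := by
    intro k l
    have a1 := hu k.succ l
    have a2 := hu 0 l
    rw [hMe, hM', Matrix.of_apply, abs_le]
    constructor <;> linarith [a1.1, a1.2, a2.1, a2.2]
  have hq1 : q2 S.p ≤ 1 := by
    unfold q2
    exact pow_le_one₀ (by norm_num) (by norm_num)
  have hdet := hC M M' (q2 S.p) (q2_pos _).le hq1 hM2 hMM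
  have hdet' : (1 / 2) ^ (c0 * S.m) / 2 ≤ |M'.det| := by
    have := abs_sub_abs_le_abs_sub M.det M'.det
    rw [not_lt] at h2
    linarith
  -- the displacements
  have hdisp : ∀ k l, TV.disp (FS S i i') (fS d) (S.J i j ω) (S.T i' ω) (fun _ => S.T i' ω₂) x k l =
      s / 4 * M' k l := by
    intro k l
    rw [hM', Matrix.of_apply]
    show 2 ^ S.lt i * (((S.T i' ω₂ : ℝ) - S.T i' ω) / 2 ^ S.lt i') * x k.succ l / 4 -
      2 ^ S.lt i * (((S.T i' ω₂ : ℝ) - S.T i' ω) / 2 ^ S.lt i') * x 0 l / 4 = _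
    rw [hs]
    ring
  have hM'4 : ∀ k l, |M' k l| ≤ 4 := by
    intro k l
    have a1 := abs_le.1 (hM2 k l)
    have a2 := abs_le.1 (hMM k l)
    rw [abs_le]
    constructor <;> linarith [a1.1, a1.2, a2.1, a2.2]
  have hle : ∀ k l, |TV.disp (FS S i i') (fS d) (S.J i j ω) (S.T i' ω) (fun _ => S.T i' ω₂) x k l| ≤
      1 := by
    intro k l
    rw [hdisp, abs_mul, abs_div, show |(4 : ℝ)| = 4 by norm_num]
    have := hM'4 k l
    calc |s| / 4 * |M' k l| ≤ 1 / 4 * 4 := by gcongr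
      _ = 1 := by norm_num
  have hdd : Matrix.of (TV.disp (FS S i i') (fS d) (S.J i j ω) (S.T i' ω) (fun _ => S.T i' ω₂) x) =
      (s / 4) • M' := by
    ext k l
    rw [Matrix.smul_apply, Matrix.of_apply, smul_eq_mul, hdisp]
  have hτ : ((1 / 2) ^ S.m / 4) ^ d * ((1 / 2) ^ (c0 * S.m) / 2) ≤
      |Matrix.det (Matrix.of (TV.disp (FS S i i') (fS d) (S.J i j ω) (S.T i' ω)
        (fun _ => S.T i' ω₂) x))| := by
    rw [hdd, Matrix.det_smul, Fintype.card_fin, abs_mul, abs_pow, abs_div,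
      show |(4 : ℝ)| = 4 by norm_num]
    unfold q2 at hs2
    gcongr
  unfold TV.chiG
  rw [if_pos ⟨hle, hτ⟩]

/-- support of a conditional law -/
theorem cond_supp' [Fintype Ω] {γ : Type*} {P : Law Ω} {D : Ω → γ} {ω ω' : Ω}
    (h : 0 < (P.cond D (D ω)).w ω') (hω : 0 < P.w ω) : 0 < P.w ω' ∧ D ω' = D ω := by
  classical
  rw [P.cond_w _ _ (P.pr_pos D hω)] at h
  split_ifs at h with h1
  · refine ⟨?_, h1⟩
    by_contra hcon
    have h0 : P.w ω' = 0 := le_antisymm (not_lt.1 hcon) (P.nn ω')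
    rw [h0, zero_div] at h
    exact lt_irrefl _ h
  · exact absurd h (lt_irrefl _)

theorem avG_ge [Fintype Ω] {P : Law Ω} {S : Sy d Ω α} {i i' j c0 : ℕ} {C e : ℝ}
    (hc0 : ∀ {Ω : Type} [Fintype Ω] {γ : Type} (P : Law Ω) (D : Ω → γ)
      (m : ℕ) (A : γ → Fr d) (z : γ → Fin d → ℝ) (Q : Ω → Fin d → ℝ) (e : ℝ), 1 ≤ m →
      (∀ ω, 0 < P.w ω → ∀ k, |ap (A (D ω)) (Q ω) k - z (D ω) k| ≤ 1) →
      PlB P m (fun ω => A (D ω)) Q D e →
      P.ex (fun ω => (TV.cop (P.cond D (D ω)) (Fin (d + 1))).ex (fun ω' =>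
        Law.ind (|(Matrix.of fun k i : Fin d => ap (A (D ω)) (Q (ω' k.succ)) i -
          ap (A (D ω)) (Q (ω' 0)) i).det| < (1 / 2) ^ (c0 * m)))) ≤ c0 * e)
    (hC : ∀ M M' : Matrix (Fin d) (Fin d) ℝ, ∀ e, 0 ≤ e → e ≤ 1 → (∀ i j, |M i j| ≤ 2) →
      (∀ i j, |M i j - M' i j| ≤ e) → |M.det - M'.det| ≤ C * e)
    (hN : S.Nrm P) (hm : 1 ≤ S.m) (hi : ∀ ω, 0 < P.w ω → iso S.w j ω)
    (hii : S.lt i + S.m ≤ S.lt i') (hii' : i ≤ i')
    (hCp : C * q2 S.p ≤ (1 / 2) ^ (c0 * S.m) / 2) (hpl : PlB P S.m (S.F j) S.Q (S.J i j) e) :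
    1 - 7 * colp P (fun ω => fl1 (S.lt i + S.m) (S.t ω)) (S.J i j) - c0 * e ≤
      P.ex (TV.avG P (S.J i j) (S.T i') (S.J i (j + 1)) (fun _ w => xS S i j w)
        (TV.chiG (FS S i i') (fS d) (((1 / 2) ^ S.m / 4) ^ d * ((1 / 2) ^ (c0 * S.m) / 2)))) := by
  classical
  set X : Ω → ℤ := fun ω => fl1 (S.lt i + S.m) (S.t ω) with hX
  set D := S.J i j with hD
  set a : Ω → ℝ := fun ω => (P.cond D (D ω)).ex (fun ω' => Law.ind (|X ω - X ω'| ≤ (3 : ℕ))) with ha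
  set b : Ω → ℝ := fun ω => (TV.cop (P.cond D (D ω)) (Fin (d + 1))).ex (fun ω' =>
        Law.ind (|(Matrix.of fun k i' : Fin d => ap (AJ S i j (D ω)) (S.Q (ω' k.succ)) i' -
          ap (AJ S i j (D ω)) (S.Q (ω' 0)) i').det| < (1 / 2) ^ (c0 * S.m))) with hb
  have h1 : P.ex a ≤ 7 * colp P X D := by
    have := pair_near_le P X D 3
    norm_num at this
    exact this
  have h2 : P.ex b ≤ c0 * e := by
    refine hc0 P D S.m (AJ S i j) (fun z => fun k => (hd (stJ z i j) k : ℝ)) S.Q e hm ?_ ?_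
    · intro ω hω k
      rw [hD, AJ_J, stJ_J S le_rfl le_rfl]
      exact wd_near hN.wd j (hN.Q1 ω hω) k
    · have : (fun ω => AJ S i j (D ω)) = S.F j := funext fun ω => AJ_J S i j ω
      rw [this]
      exact hpl
  have h3 : P.ex (fun ω => 1 - a ω - b ω) ≤
      P.ex (TV.avG P D (S.T i') (S.J i (j + 1)) (fun _ w => xS S i j w)
        (TV.chiG (FS S i i') (fS d) (((1 / 2) ^ S.m / 4) ^ d * ((1 / 2) ^ (c0 * S.m) / 2)))) := by
    refine P.ex_mono fun ω hω => ?_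
    unfold TV.avG
    have e1 : 1 - a ω - b ω = (TV.cop (P.cond D (D ω)) Unit).ex (fun z =>
        1 - Law.ind (|X ω - X (z ())| ≤ (3 : ℕ)) - b ω) := by
      rw [Law.ex_sub, Law.ex_sub, Law.ex_const, Law.ex_const]
      rw [TV.cop_ex1 (P.cond D (D ω)) () (fun ω' => Law.ind (|X ω - X ω'| ≤ (3 : ℕ)))]
    rw [e1]
    refine Law.ex_mono _ fun z hz => ?_
    have hz2 := cond_supp' (TV.cop_supp hz ()) hω
    have e2 : 1 - Law.ind (|X ω - X (z ())| ≤ (3 : ℕ)) - b ω =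
        (TV.cop (P.cond D (D ω)) (Fin (d + 1))).ex (fun ω' =>
          1 - Law.ind (|X ω - X (z ())| ≤ (3 : ℕ)) -
          Law.ind (|(Matrix.of fun k i' : Fin d => ap (AJ S i j (D ω)) (S.Q (ω' k.succ)) i' -
          ap (AJ S i j (D ω)) (S.Q (ω' 0)) i').det| < (1 / 2) ^ (c0 * S.m))) := by
      rw [Law.ex_sub, Law.ex_const]
    rw [e2]
    refine Law.ex_mono _ fun y hy => ?_
    exact chi_ge hC hN hi hii hii' hCp (base_T (J_base hz2.2 le_rfl le_rfl))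
      (fun k => cond_supp' (TV.cop_supp hy k) hω)
  rw [P.ex_sub, P.ex_sub, P.ex_const] at h3
  linarith

end Vale.Agent.P106.U.EndA
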