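import Vale.Agent.P106.U.H611.Defs
import Vale.Agent.P106.TV.MStepG
import Mathlib.LinearAlgebra.Matrix.Determinant.Basic

/-!
# P106 / U / H611 : exact statements (END7, Case A; `SAT_d` with a side variable)

* `PLat d` lattice lemma, `PNon d` copies are not near a hyperplane, `PSat d` concrete M-step of the system
  `Sy` (abstract M-step: `TV.mstepG` of helper459).
* `PWord d` existence of the word, `PGood d` its levels under a conditioned law, `PActT` activity with a side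
  variable, `PEnd d` the cells are functions of the end, `PCore d` the composition.
-/

set_option autoImplicit false

namespace Vale.Agent.P106.U.EndA

open Finset Vale.Agent.P127 Vale.Agent.P127.Stk Vale.Agent.P127.U.CellD Vale.Agent.P127.U.Mic
open Vale.Agent.P127.TV (Tr)

/-- **[LAT]** `d` approximate translations spanning `R^d` ⇒ the integer parts are saturated past the
integer parts of `X / L` -/
def PLat (d : ℕ) : Prop := ∃ c : ℝ, 0 ≤ c ∧ ∀ {Ω : Type} [Fintype Ω] (Q : Law Ω) (X : Ω → Fin d → ℝ)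
    (u : Fin d → Fin d → ℝ) (ε : Fin d → ℝ) (ρ δ L : ℝ) (R : ℕ),
    (∀ k i, |u k i| ≤ 2) → 0 < δ → δ ≤ |(Matrix.of u).det| → 1 ≤ L → c * L ≤ R * δ → 0 ≤ ρ →
    c * (R * ρ) ≤ 1 → 1 ≤ R → (∀ k, Tr Q X (u k) (fun _ => ρ) (ε k)) →
    d * Real.log L - c - c * (R * (1 + Real.log R)) * ∑ k, ε k ≤
      hc Q (fun ω k => ⌊X ω k⌋) (fun ω k => ⌊X ω k / L⌋)

/-- **[NON]** `d + 1` copies given `D` are not near a hyperplane -/
def PNon (d : ℕ) : Prop := ∃ c : ℕ, ∀ {Ω : Type} [Fintype Ω] {γ : Type} (P : Law Ω) (D : Ω → γ)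
    (m : ℕ) (A : γ → Fr d) (z : γ → Fin d → ℝ) (Q : Ω → Fin d → ℝ) (e : ℝ), 1 ≤ m →
    (∀ ω, 0 < P.w ω → ∀ k, |ap (A (D ω)) (Q ω) k - z (D ω) k| ≤ 1) →
    PlB P m (fun ω => A (D ω)) Q D e →
    P.ex (fun ω => (TV.cop (P.cond D (D ω)) (Fin (d + 1))).ex (fun ω' =>
      Law.ind (|(Matrix.of fun k i : Fin d => ap (A (D ω)) (Q (ω' k.succ)) i -
        ap (A (D ω)) (Q (ω' 0)) i).det| < (1 / 2) ^ (c * m)))) ≤ c * e

/-- **[SAT]** the concrete M-step : block of the position (frame `j`, time `i'`) between the units `2^m` and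
`1` (unit `= 2^-(lt i)` in the frame `j`) -/
def PSat (d : ℕ) : Prop := ∃ c : ℕ, ∀ {Ω : Type} [Fintype Ω] {α : Type} (P : Law Ω) (S : Sy d Ω α)
    (i i' j : ℕ) (e ι₁ ι₂ : ℝ), S.Nrm P → 1 ≤ S.m → c * S.m + S.κ ≤ S.p →
    S.lt i + S.κ + c * S.m ≤ S.lt i' → (∀ ω, 0 < P.w ω → iso S.w j ω) →
    PlB P S.m (S.F j) S.Q (S.J i j) e →
    mi P (S.w (j + 1)) (S.J i' j) (S.J i j) ≤ ι₁ →
    mi P (S.T i') (S.J i (j + 1)) (S.J i j) ≤ ι₂ →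
    d * S.m * Real.log 2 - (c + c * S.m * (colp P (fun ω => fl1 (S.lt i + S.m) (S.t ω)) (S.J i j) + e) +
        (2 : ℝ) ^ (c * S.m) * (Real.sqrt ι₁ + Real.sqrt ι₂)) ≤
      hc P (fun ω k => ⌊S.ps i' i j ω k⌋)
        (fun ω => ((fun k => ⌊S.ps i' i j ω k / 2 ^ S.m⌋), S.J i j ω, S.T i' ω))

/-- heavy slabs are revealed: off the revealed slabs every slab has small mass -/
def Hvy {d : ℕ} {Ω : Type} [Fintype Ω] {ζ : Type} (P : Law Ω) (Z : Ω → ζ) (Q : Ω → Fin d → ℝ)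
    (m p : ℕ) (w : ℕ → Ω → Sta d) (thr : ℝ) : Prop :=
  ∀ j ω, 0 < P.w ω → ∀ π : Fin d × (Fin d → ℤ) × ℤ, okc m π.2.1 →
    prE P (fun ω' => Z ω' = Z ω ∧ w j ω' = w j ω ∧ iso w j ω' ∧ sl m (fr m p (w j ω)) (Q ω') π) ≤
      thr * prE P (fun ω' => Z ω' = Z ω ∧ w j ω' = w j ω)

/-- **[WORD]** existence of the word -/
def PWord (d : ℕ) : Prop := ∃ c : ℝ, 0 ≤ c ∧ ∀ {Ω : Type} [Fintype Ω] {ζ : Type} (P : Law Ω)
    (Z : Ω → ζ) (Q : Ω → Fin d → ℝ) (m p : ℕ) (thr : ℝ),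
    (∀ ω, 0 < P.w ω → ∀ l, |Q ω l| ≤ 1) → 0 < thr → thr ≤ 1 →
    ∃ w : ℕ → Ω → Sta d, IsWd m p Q w ∧ Hvy P Z Q m p w thr ∧
      (∀ j, Fn P (w j) (fun ω => (Z ω, Q ω))) ∧
      ∀ j, hc P (w (j + 1)) (fun ω => (Z ω, w j ω)) ≤
        Real.log (1 / thr + 1) + c + d * p * Real.log 2 * prE P (iso w j)

/-- **[GOOD]** levels of the word under a law `Q' ≤ P / p0` on which the steps of `K` are isotropic -/
def PGood (d : ℕ) : Prop := ∀ {Ω : Type} [Fintype Ω] {ζ : Type} (P Q' : Law Ω) (p0 : ℝ) (Z : Ω → ζ)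
    (Q : Ω → Fin d → ℝ) (m p : ℕ) (w : ℕ → Ω → Sta d) (thr ε : ℝ) (K : Finset ℕ),
    m + d ≤ p → 0 < p0 → (∀ ω, p0 * Q'.w ω ≤ P.w ω) → IsWd m p Q w → Hvy P Z Q m p w thr →
    0 < thr → 6 * thr < ε → (∀ j ∈ K, ∀ ω, 0 < Q'.w ω → iso w j ω) →
    ∃ G ⊆ K, (∀ j ∈ G, PlB Q' m (fun ω => fr m p (w j ω)) Q (fun ω => (Z ω, w j ω)) (2 * ε)) ∧
      ((K.card : ℝ) - G.card) * (ε * Real.log (ε / (6 * thr)) - 1) ≤ Real.log (1 / p0)

/-- **[ACT]** activity given a side variable of small entropy; `T` nested -/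
def PActT : Prop := ∃ c : ℝ, 0 ≤ c ∧ ∀ {Ω : Type} [Fintype Ω] {ξ ν τ : Type} (P : Law Ω) (l : Ω → ξ)
    (V : Ω → ν) (T : ℕ → Ω → τ) (n : ℕ) (thr : ℝ), (∀ i, Fn P (T i) (T (i + 1))) → 0 < thr → thr < 1 →
    ∑ i ∈ range n, colp P (T (i + 1)) (fun ω => (l ω, V ω, T i ω)) ≤
      ∑ i ∈ range n, prE P (fun ω => thr ^ 2 < cq P (T (i + 1)) (fun ω => (l ω, T i ω)) (T (i + 1) ω)
        (l ω, T i ω)) + n * thr + (hc P V l + c * n) / Real.log (1 / thr)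

/-- **[END]** after a translation all cells are functions of the end, of the side variable and of the state
(off small events) -/
def PEnd (d : ℕ) : Prop := ∃ c : ℕ, ∀ {Ω : Type} [Fintype Ω] {α : Type} (P : Law Ω) (S : Sy d Ω α)
    (n j0 h : ℕ), S.Nrm P → 1 ≤ S.m → S.m ≤ S.p → S.κ + c * j0 + c ≤ S.a0 →
    S.lt n + (j0 + 1) * (S.p + c) ≤ h →
    ∃ o : Fin d → ℝ, (∀ l, 0 ≤ o l ∧ o l ≤ 1) ∧ ∀ i ≤ n, ∀ j ≤ j0,
      (∃ Φ : ((ℤ × (Fin d → ℤ)) × α) × Sta d → (ℕ → ℕ → Option (α × ℤ × Sta d × (Fin d → ℤ))),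
        prE P (fun ω => (S.trn o).J i j ω ≠ Φ ((S.Zh h ω, S.A ω), S.w j ω)) ≤
          c * ((n + 1) * (j0 + 1)) / 2 ^ S.κ) ∧
      (c * ((n + 1) * (j0 + 1)) ^ 2 ≤ (2 : ℝ) ^ S.κ →
        hc P ((S.trn o).J i j) (fun ω => ((S.Zh h ω, S.A ω), S.w j ω)) ≤ c)

/-- **[CORE]** the composition: `B` = isotropic steps at which no slab is heavy given the end -/
def PCore (d : ℕ) : Prop := ∃ c : ℕ, ∀ {Ω : Type} [Fintype Ω] {α : Type} (P : Law Ω) (S : Sy d Ω α)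
    (n j0 h M : ℕ) (B : Finset ℕ) (ε : ℝ), S.Nrm P → 1 ≤ S.m → c * S.m + S.κ ≤ S.p → S.m ≤ S.κ →
    1 ≤ M → S.κ + c * j0 + c ≤ S.a0 → S.lt n + (j0 + 1) * (S.p + c) ≤ h → B.Nonempty →
    (∀ j ∈ B, j < j0) → (∀ j ∈ B, ∀ ω, 0 < P.w ω → iso S.w j ω) →
    (∀ j ∈ B, PlB P S.m (S.F j) S.Q (fun ω => ((S.Zh h ω, S.A ω), S.w j ω)) ε) →
    ∑ i ∈ range n, colp P (S.T (i + 1)) (fun ω => (S.ray ω, (S.A ω, S.w j0 ω), S.T i ω)) ≤ ε * n →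
    0 ≤ ε → c * ((n + 1) * (j0 + 1)) ^ 2 ≤ (2 : ℝ) ^ S.κ →
    d * (S.m * n) * Real.log 2 - c * (n + S.m * n * ε + S.m * n / M + M * S.p) -
        (2 : ℝ) ^ (c * S.m) * (Real.sqrt (n * (M * S.p * S.p)) + n * Real.sqrt (M * S.p / B.card)) ≤
      mi P S.ray (S.Zh h) (fun ω => (S.A ω, S.T 0 ω)) +
        hc P (S.w j0) (fun ω => (S.ray ω, (S.A ω, S.T 0 ω)))

end Vale.Agent.P106.U.EndA
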