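import Vale.Agent.P106.U.H611.Props

/-!
# P106 / U / H611 : the dichotomy (END7): few isotropic steps ⇒ the velocity is in a known slab

* `pat` the set of the isotropic steps. `PPat` : many isotropic steps in mean ⇒ a likely pattern with many.
* `PDet`, `PCov` : the frame after `J` steps has determinant at least `2^(m J)`, hence one row of size
  `2^(m J / d) / d` : a slab containing the velocity, function of the state.
* `PWsum` entropy of the word given `Z`; `PWcr` entropy of the word given the velocity.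
-/

set_option autoImplicit false

namespace Vale.Agent.P106.U.EndA

open Finset Vale.Agent.P127 Vale.Agent.P127.Stk Vale.Agent.P127.U.CellD Vale.Agent.P127.U.Mic

open Classical in
/-- the isotropic steps `< J` -/
noncomputable def pat {Ω : Type} {d : ℕ} (w : ℕ → Ω → Sta d) (J : ℕ) (ω : Ω) : Finset ℕ :=
  (range J).filter fun j => iso w j ω

/-- **[PAT]** many isotropic steps in mean: a likely pattern with many isotropic steps -/
def PPat : Prop := ∀ {Ω : Type} [Fintype Ω] {d : ℕ} (P : Law Ω) (w : ℕ → Ω → Sta d) (J : ℕ) (c1 : ℝ),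
    1 ≤ J → 0 < c1 → c1 * J ≤ ∑ j ∈ range J, prE P (iso w j) →
    c1 / 4 ≤ prE P (fun ω => c1 / 2 * J ≤ ((pat w J ω).card : ℝ) ∧
      c1 / 4 / 2 ^ J ≤ P.pr (pat w J) (pat w J ω))

/-- **[DET]** determinant of the frames -/
def PDet (d : ℕ) : Prop := ∀ {Ω : Type} (Q : Ω → Fin d → ℝ) (m p : ℕ) (w : ℕ → Ω → Sta d),
    IsWd m p Q w → m ≤ p → 1 ≤ d → ∀ j ω,
      (2 : ℝ) ^ (m * j) ≤ |(Matrix.of (fr m p (w j ω))).det|

/-- **[COV]** the slab of the state -/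
def PCov (d : ℕ) : Prop := ∀ (m p J : ℕ), m ≤ p → 1 ≤ d → ∃ π : Sta d → (Fin d → ℝ) × ℝ,
    (∀ s, (∀ l, |(π s).1 l| ≤ 1) ∧ ∃ l, |(π s).1 l| = 1) ∧
    ∀ {Ω : Type} (Q : Ω → Fin d → ℝ) (w : ℕ → Ω → Sta d), IsWd m p Q w → ∀ ω, (∀ l, |Q ω l| ≤ 1) →
      |∑ l, (π (w J ω)).1 l * Q ω l - (π (w J ω)).2| ≤ d * (2 : ℝ) ^ (-((m * J : ℕ) : ℝ) / d)

/-- **[WSUM]** entropy of the word given `Z` -/
def PWsum (d : ℕ) : Prop := ∀ {Ω : Type} [Fintype Ω] {ζ : Type} (P : Law Ω)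
    (Z : Ω → ζ) (Q : Ω → Fin d → ℝ) (m p : ℕ) (w : ℕ → Ω → Sta d) (a b : ℝ), IsWd m p Q w →
    (∀ j, hc P (w (j + 1)) (fun ω => (Z ω, w j ω)) ≤ a + b * prE P (iso w j)) →
    ∀ J, hc P (w J) Z ≤ J * a + b * ∑ j ∈ range J, prE P (iso w j)

/-- **[WCR]** entropy of the word given the velocity -/
def PWcr (d : ℕ) : Prop := ∀ {Ω : Type} [Fintype Ω] (P : Law Ω) (Q : Ω → Fin d → ℝ)
    (m p : ℕ) (w : ℕ → Ω → Sta d), IsWd m p Q w →
    ∀ j, hc P (w j) Q ≤ j * (Real.log (d + 1) + d * (m + 2) * Real.log 2)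

end Vale.Agent.P106.U.EndA
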